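import Mathlib

/-!
Definitions for the classical capacity of the generalized amplitude-damping channel.
-/

open Matrix
open scoped ComplexOrder

namespace Vale.Agent.P358

/-- The single-qubit generalized amplitude-damping map with damping strength `γ` and stationary
excited population `ν`, extended linearly to all `2 × 2` matrices (for trace one it sends
`[[1-q, z], [z̄, q]]` to `[[1-t, √(1-γ) z], [√(1-γ) z̄, t]]` with `t = (1-γ) q + γ ν`). -/
noncomputable def gad (γ ν : ℝ) (X : Matrix (Fin 2) (Fin 2) ℂ) : Matrix (Fin 2) (Fin 2) ℂ :=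
  !![((1 - γ * ν : ℝ) : ℂ) * X 0 0 + ((γ * (1 - ν) : ℝ) : ℂ) * X 1 1,
     ((Real.sqrt (1 - γ) : ℝ) : ℂ) * X 0 1;
     ((Real.sqrt (1 - γ) : ℝ) : ℂ) * X 1 0,
     ((γ * ν : ℝ) : ℂ) * X 0 0 + ((1 - γ + γ * ν : ℝ) : ℂ) * X 1 1]

/-- The `n`-fold tensor power of the channel, on matrices indexed by strings of `n` bits: each
matrix unit is mapped to the product of the single-qubit images of its factors. -/
noncomputable def gadPow (γ ν : ℝ) (n : ℕ) (X : Matrix (Fin n → Fin 2) (Fin n → Fin 2) ℂ) :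
    Matrix (Fin n → Fin 2) (Fin n → Fin 2) ℂ :=
  Matrix.of fun i j => ∑ a : Fin n → Fin 2, ∑ b : Fin n → Fin 2,
    (∏ l, gad γ ν (Matrix.single (a l) (b l) 1) (i l) (j l)) * X a b

/-- A density matrix. -/
def IsState {ι : Type*} [Fintype ι] (ρ : Matrix ι ι ℂ) : Prop :=
  ρ.PosSemidef ∧ ρ.trace = 1

/-- The von Neumann entropy in bits (zero on non-Hermitian matrices). -/
noncomputable def entropy {ι : Type*} [Fintype ι] [DecidableEq ι] (M : Matrix ι ι ℂ) : ℝ :=
  if h : M.IsHermitian then (∑ i, Real.negMulLog (h.eigenvalues i)) / Real.log 2 else 0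

/-- The values `S(∑ p N^⊗n(ρ)) - ∑ p S(N^⊗n(ρ))` over all finite ensembles of input states. -/
def holevoValues (γ ν : ℝ) (n : ℕ) : Set ℝ :=
  {x | ∃ (m : ℕ) (p : Fin m → ℝ) (ρ : Fin m → Matrix (Fin n → Fin 2) (Fin n → Fin 2) ℂ),
    (∀ a, 0 ≤ p a) ∧ ∑ a, p a = 1 ∧ (∀ a, IsState (ρ a)) ∧
    x = entropy (∑ a, (p a : ℂ) • gadPow γ ν n (ρ a))
      - ∑ a, p a * entropy (gadPow γ ν n (ρ a))}

/-- The Holevo capacity of the `n`-fold tensor power. -/
noncomputable def chi (γ ν : ℝ) (n : ℕ) : ℝ := sSup (holevoValues γ ν n)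

/-- The classical capacity: the regularised Holevo capacity. -/
noncomputable def capacity (γ ν : ℝ) : ℝ :=
  sSup {x | ∃ n : ℕ, 1 ≤ n ∧ x = chi γ ν n / n}

/-- The one-parameter expression for the capacity, in bits: `h(t) - h((1 + r)/2)` where
`t = (1-γ) q + γ ν` and `r` is the length of the Bloch vector of the output of a pure input with
excited population `q`. -/
noncomputable def rate (γ ν q : ℝ) : ℝ :=
  (Real.binEntropy ((1 - γ) * q + γ * ν)
    - Real.binEntropy ((1 + Real.sqrt ((1 - 2 * ((1 - γ) * q + γ * ν)) ^ 2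
        + 4 * (1 - γ) * q * (1 - q))) / 2)) / Real.log 2

/-- The maximum of `rate` over the excited population. -/
noncomputable def capacityValue (γ ν : ℝ) : ℝ := sSup (rate γ ν '' Set.Icc 0 1)

end Vale.Agent.P358
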