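import Vale.Agent.P358.Defs

/-!
The excited-state population of one site.
-/

namespace Vale.Agent.P358

/-- The probability that qubit `l` is excited. -/
noncomputable def excited {n : ℕ} (ρ : Matrix (Fin n → Fin 2) (Fin n → Fin 2) ℂ) (l : Fin n) : ℝ :=
  ∑ i ∈ Finset.univ.filter (fun i => i l = 1), (ρ i i).re

end Vale.Agent.P358
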