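import Mathlib
import Vale.Agent.P358.Defs
import Vale.Agent.P358.Excited

/-!
Kraus form, linearity and marginals of the tensor powers of the channel.
-/

open Matrix Finset
open scoped ComplexOrder

namespace Vale.Agent.P358

variable {g v : ℝ} {n : ℕ}

/-- Four Kraus matrices of the channel. -/
noncomputable def kr (g v : ℝ) : Fin 4 → Matrix (Fin 2) (Fin 2) ℂ :=
  ![!![((Real.sqrt (1 - v) : ℝ) : ℂ), 0; 0, ((Real.sqrt (1 - v) * Real.sqrt (1 - g) : ℝ) : ℂ)],
    !![0, ((Real.sqrt (1 - v) * Real.sqrt g : ℝ) : ℂ); 0, 0],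
    !![((Real.sqrt v * Real.sqrt (1 - g) : ℝ) : ℂ), 0; 0, ((Real.sqrt v : ℝ) : ℂ)],
    !![0, 0; ((Real.sqrt v * Real.sqrt g : ℝ) : ℂ), 0]]

/-- Transfer coefficients. -/
noncomputable def coef (g v : ℝ) (i j a b : Fin 2) : ℂ := gad g v (Matrix.single a b 1) i j

lemma gad_eq_sum (g v : ℝ) (X : Matrix (Fin 2) (Fin 2) ℂ) (i j : Fin 2) :
    gad g v X i j = ∑ a, ∑ b, coef g v i j a b * X a b := by
  fin_cases i <;> fin_cases j <;>
    simp [coef, gad, Fin.sum_univ_two, Matrix.single_apply]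

lemma coef_kraus (hg : g ∈ Set.Icc (0 : ℝ) 1) (hv : v ∈ Set.Icc (0 : ℝ) 1) (i j a b : Fin 2) :
    coef g v i j a b = ∑ k, kr g v k i a * star (kr g v k j b) := by
  have s1 : Real.sqrt (1 - v) * Real.sqrt (1 - v) = 1 - v := Real.mul_self_sqrt (by linarith [hv.2])
  have s2 : Real.sqrt v * Real.sqrt v = v := Real.mul_self_sqrt hv.1
  have s3 : Real.sqrt (1 - g) * Real.sqrt (1 - g) = 1 - g := Real.mul_self_sqrt (by linarith [hg.2])
  have s4 : Real.sqrt g * Real.sqrt g = g := Real.mul_self_sqrt hg.1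
  apply Complex.ext
  · fin_cases i <;> fin_cases j <;> fin_cases a <;> fin_cases b <;>
      simp [coef, gad, kr, Fin.sum_univ_four, Matrix.single_apply, Complex.mul_re] <;>
      grind
  · fin_cases i <;> fin_cases j <;> fin_cases a <;> fin_cases b <;>
      simp [coef, gad, kr, Fin.sum_univ_four, Matrix.single_apply, Complex.mul_im]

lemma gadPow_apply (g v : ℝ) (X : Matrix (Fin n → Fin 2) (Fin n → Fin 2) ℂ) (i j : Fin n → Fin 2) :
    gadPow g v n X i j = ∑ a, ∑ b, (∏ l, coef g v (i l) (j l) (a l) (b l)) * X a b := rfl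

/-- Product Kraus matrices. -/
noncomputable def krPow (g v : ℝ) (k : Fin n → Fin 4) :
    Matrix (Fin n → Fin 2) (Fin n → Fin 2) ℂ :=
  Matrix.of fun i a => ∏ l, kr g v (k l) (i l) (a l)

lemma gadPow_kraus (hg : g ∈ Set.Icc (0 : ℝ) 1) (hv : v ∈ Set.Icc (0 : ℝ) 1)
    (X : Matrix (Fin n → Fin 2) (Fin n → Fin 2) ℂ) :
    gadPow g v n X = ∑ k, krPow g v k * X * (krPow g v k)ᴴ := by
  ext i j
  rw [gadPow_apply, Matrix.sum_apply]
  simp only [Matrix.mul_apply, conjTranspose_apply, krPow, Matrix.of_apply, coef_kraus hg hv,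
    Fintype.prod_sum, Finset.sum_mul, star_prod, Finset.prod_mul_distrib]
  rw [Finset.sum_comm, Finset.sum_congr rfl fun b _ => Finset.sum_comm, Finset.sum_comm]
  refine Finset.sum_congr rfl fun k _ => Finset.sum_congr rfl fun b _ =>
    Finset.sum_congr rfl fun a _ => ?_
  ring

theorem gadPow_posSemidef (hg : g ∈ Set.Icc (0 : ℝ) 1) (hv : v ∈ Set.Icc (0 : ℝ) 1)
    {X : Matrix (Fin n → Fin 2) (Fin n → Fin 2) ℂ} (hX : X.PosSemidef) :
    (gadPow g v n X).PosSemidef := by
  rw [gadPow_kraus hg hv]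
  exact Matrix.posSemidef_sum _ fun k _ => hX.mul_mul_conjTranspose_same _

lemma gadPow_sum {ι : Type*} (g v : ℝ) (s : Finset ι) (c : ι → ℂ)
    (X : ι → Matrix (Fin n → Fin 2) (Fin n → Fin 2) ℂ) :
    gadPow g v n (∑ a ∈ s, c a • X a) = ∑ a ∈ s, c a • gadPow g v n (X a) := by
  ext i j
  simp only [gadPow_apply, Matrix.sum_apply, Matrix.smul_apply, smul_eq_mul, Finset.mul_sum]
  rw [Finset.sum_congr rfl fun a _ => Finset.sum_comm, Finset.sum_comm]
  refine Finset.sum_congr rfl fun c _ => Finset.sum_congr rfl fun a _ =>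
    Finset.sum_congr rfl fun b _ => ?_
  ring

lemma gadPow_diag_weighted (g v : ℝ) (X : Matrix (Fin n → Fin 2) (Fin n → Fin 2) ℂ)
    (w : Fin n → Fin 2 → ℂ) :
    ∑ i, (∏ l, w l (i l)) * gadPow g v n X i i
      = ∑ a, ∑ b, (∏ l, ∑ c, w l c * coef g v c c (a l) (b l)) * X a b := by
  simp only [gadPow_apply, Finset.mul_sum, Fintype.prod_sum, Finset.sum_mul,
    Finset.prod_mul_distrib, mul_assoc]
  rw [Finset.sum_comm]
  exact Finset.sum_congr rfl fun a _ => Finset.sum_comm

lemma coef_trace (g v : ℝ) (a b : Fin 2) :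
    ∑ c, coef g v c c a b = if a = b then 1 else 0 := by
  fin_cases a <;> fin_cases b <;>
    simp [coef, gad, Fin.sum_univ_two, Matrix.single_apply] <;> ring

lemma coef_one (g v : ℝ) (a b : Fin 2) : coef g v 1 1 a b
    = if a = b then (if a = 1 then ((1 - g + g * v : ℝ) : ℂ) else ((g * v : ℝ) : ℂ)) else 0 := by
  fin_cases a <;> fin_cases b <;> simp [coef, gad, Matrix.single_apply]

theorem gadPow_trace (g v : ℝ) (X : Matrix (Fin n → Fin 2) (Fin n → Fin 2) ℂ) :
    (gadPow g v n X).trace = X.trace := by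
  have h := gadPow_diag_weighted g v X (fun _ _ => 1)
  simp only [Finset.prod_const_one, one_mul, coef_trace] at h
  rw [Matrix.trace, Matrix.trace]
  simp only [Matrix.diag_apply]
  rw [h]
  refine Finset.sum_congr rfl fun a _ => ?_
  rw [Finset.sum_eq_single a (fun b _ hb => ?_) (by simp)]
  · simp
  · obtain ⟨l, hl⟩ := Function.ne_iff.1 (Ne.symm hb)
    rw [Finset.prod_eq_zero (Finset.mem_univ l) (by simp [hl]), zero_mul]

theorem gadPow_isState (hg : g ∈ Set.Icc (0 : ℝ) 1) (hv : v ∈ Set.Icc (0 : ℝ) 1)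
    {X : Matrix (Fin n → Fin 2) (Fin n → Fin 2) ℂ} (hX : IsState X) :
    IsState (gadPow g v n X) :=
  ⟨gadPow_posSemidef hg hv hX.1, by rw [gadPow_trace, hX.2]⟩

lemma excited_indicator (ρ : Matrix (Fin n → Fin 2) (Fin n → Fin 2) ℂ) (l : Fin n) :
    excited ρ l = (∑ i, (∏ m, if m = l then (if i m = 1 then (1 : ℂ) else 0) else 1) * ρ i i).re := by
  have : ∀ i : Fin n → Fin 2,
      (∏ m, if m = l then (if i m = 1 then (1 : ℂ) else 0) else 1)
        = if i l = 1 then 1 else 0 := by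
    intro i; simp [Finset.prod_ite_eq']
  simp only [this, ite_mul, one_mul, zero_mul, Complex.re_sum, excited, Finset.sum_filter]
  exact Finset.sum_congr rfl fun i _ => by split_ifs <;> simp

theorem excited_gadPow (g v : ℝ) {X : Matrix (Fin n → Fin 2) (Fin n → Fin 2) ℂ}
    (hX : X.trace = 1) (l : Fin n) :
    excited (gadPow g v n X) l = (1 - g) * excited X l + g * v := by
  rw [excited_indicator, gadPow_diag_weighted g v X
    (fun m c => if m = l then (if c = 1 then (1 : ℂ) else 0) else 1)]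
  have key : ∀ a : Fin n → Fin 2, ∑ b, (∏ m, ∑ c, (if m = l then (if c = 1 then (1 : ℂ) else 0)
      else 1) * coef g v c c (a m) (b m)) * X a b
      = (if a l = 1 then ((1 - g + g * v : ℝ) : ℂ) else ((g * v : ℝ) : ℂ)) * X a a := by
    intro a
    rw [Finset.sum_eq_single a (fun b _ hb => ?_) (by simp)]
    · congr 1
      rw [Finset.prod_eq_single l (fun m _ hm => ?_) (by simp)]
      · simp [coef_one]
      · simp only [hm, if_false, one_mul, coef_trace, if_true]
    · obtain ⟨m, hm⟩ := Function.ne_iff.1 (Ne.symm hb)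
      refine mul_eq_zero_of_left (Finset.prod_eq_zero (Finset.mem_univ m) ?_) _
      by_cases h : m = l
      · subst h; simp [coef_one, hm]
      · simp only [h, if_false, one_mul, coef_trace, hm]
  simp only [key]
  have hsum : ∑ a, (X a a).re = 1 := by
    have := congrArg Complex.re hX
    simpa [Matrix.trace, Complex.re_sum] using this
  rw [Complex.re_sum]
  calc ∑ a, (((if a l = 1 then ((1 - g + g * v : ℝ) : ℂ) else ((g * v : ℝ) : ℂ)) * X a a)).re
      = ∑ a, ((1 - g) * (if a l = 1 then (X a a).re else 0) + g * v * (X a a).re) :=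
        Finset.sum_congr rfl fun a _ => by split_ifs <;> simp [Complex.mul_re] <;> ring
    _ = _ := by
        rw [Finset.sum_add_distrib, ← Finset.mul_sum, ← Finset.mul_sum, hsum, excited,
          Finset.sum_filter]
        ring

theorem excited_mem {ρ : Matrix (Fin n → Fin 2) (Fin n → Fin 2) ℂ} (hρ : IsState ρ) (l : Fin n) :
    excited ρ l ∈ Set.Icc (0 : ℝ) 1 := by
  have hd : ∀ i, 0 ≤ (ρ i i).re := fun i => (Complex.le_def.1 (hρ.1.diag_nonneg (i := i))).1
  refine ⟨Finset.sum_nonneg fun i _ => hd i, ?_⟩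
  have hsum : ∑ a, (ρ a a).re = 1 := by
    have := congrArg Complex.re hρ.2
    simpa [Matrix.trace, Complex.re_sum] using this
  rw [← hsum]
  exact Finset.sum_le_sum_of_subset_of_nonneg (Finset.filter_subset _ _) fun i _ _ => hd i

theorem excited_sum {ι : Type*} (s : Finset ι) (p : ι → ℝ)
    (ρ : ι → Matrix (Fin n → Fin 2) (Fin n → Fin 2) ℂ) (l : Fin n) :
    excited (∑ a ∈ s, (p a : ℂ) • ρ a) l = ∑ a ∈ s, p a * excited (ρ a) l := by
  simp only [excited, Matrix.sum_apply, Matrix.smul_apply, smul_eq_mul, Complex.re_sum,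
    Complex.re_ofReal_mul, Finset.mul_sum]
  exact Finset.sum_comm

/-- Entries of the output on a product input. -/
theorem gadPow_prod (g v : ℝ) (r : Fin n → Matrix (Fin 2) (Fin 2) ℂ) :
    gadPow g v n (Matrix.of fun a b => ∏ l, r l (a l) (b l))
      = Matrix.of fun i j => ∏ l, gad g v (r l) (i l) (j l) := by
  ext i j
  simp only [gadPow_apply, Matrix.of_apply, ← Finset.prod_mul_distrib, gad_eq_sum,
    Fintype.prod_sum]

end Vale.Agent.P358
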