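import Mathlib

/-!
The functional `eta M = ∑ negMulLog (eigenvalues)` and an integral-free comparison lemma.
-/

open Matrix Real Filter
open scoped Topology ComplexOrder

namespace Vale.Agent.P358

variable {ι κ : Type*} [Fintype ι] [DecidableEq ι] [Fintype κ] [DecidableEq κ]

/-- `∑ -λ log λ` over the roots of the characteristic polynomial. -/
noncomputable def eta (M : Matrix ι ι ℂ) : ℝ :=
  (M.charpoly.roots.map fun z => Real.negMulLog z.re).sum

theorem eta_eq {M : Matrix ι ι ℂ} (hM : M.IsHermitian) :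
    eta M = ∑ i, Real.negMulLog (hM.eigenvalues i) := by
  rw [eta, hM.roots_charpoly_eq_eigenvalues, Multiset.map_map, Finset.sum_eq_multiset_sum]
  rfl

theorem eta_zero : eta (0 : Matrix ι ι ℂ) = 0 := by
  rw [eta_eq Matrix.isHermitian_zero]
  have h : (Matrix.isHermitian_zero (n := ι) (α := ℂ)).eigenvalues = 0 :=
    (Matrix.IsHermitian.eigenvalues_eq_zero_iff _).2 rfl
  simp [h]

theorem eta_congr {M : Matrix ι ι ℂ} {N : Matrix κ κ ℂ} (h : M.charpoly = N.charpoly) :
    eta M = eta N := by rw [eta, eta, h]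

theorem eta_reindex (e : ι ≃ κ) (M : Matrix ι ι ℂ) : eta (Matrix.reindex e e M) = eta M :=
  eta_congr (Matrix.charpoly_reindex e M)

theorem eta_unitary_conj {U : Matrix ι ι ℂ} (hU : Uᴴ * U = 1) (M : Matrix ι ι ℂ) :
    eta (U * M * Uᴴ) = eta M := by
  refine eta_congr ?_
  rw [Matrix.charpoly_mul_comm, ← Matrix.mul_assoc, hU, Matrix.one_mul]

theorem eta_mul_comm (A : Matrix ι κ ℂ) (B : Matrix κ ι ℂ) : eta (A * B) = eta (B * A) := by
  have h := congrArg Polynomial.roots (Matrix.charpoly_mul_comm' A B)
  rw [Polynomial.roots_mul (mul_ne_zero (pow_ne_zero _ Polynomial.X_ne_zero)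
      (Matrix.charpoly_monic _).ne_zero),
    Polynomial.roots_mul (mul_ne_zero (pow_ne_zero _ Polynomial.X_ne_zero)
      (Matrix.charpoly_monic _).ne_zero), Polynomial.roots_X_pow, Polynomial.roots_X_pow] at h
  have h2 := congrArg (fun s => (s.map fun z : ℂ => Real.negMulLog z.re).sum) h
  simpa [eta, Multiset.map_add, Multiset.sum_add, Multiset.nsmul_singleton,
    Real.negMulLog_zero] using h2

theorem trace_re_eq {M : Matrix ι ι ℂ} (hM : M.IsHermitian) :
    M.trace.re = ∑ i, hM.eigenvalues i := by
  rw [hM.trace_eq_sum_eigenvalues]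
  simp

theorem det_shift {M : Matrix ι ι ℂ} (hM : M.IsHermitian) (s : ℝ) :
    ((s : ℂ) • (1 : Matrix ι ι ℂ) + M).det = ((∏ i, (s + hM.eigenvalues i) : ℝ) : ℂ) := by
  have h := Matrix.eval_charpoly M (-(s : ℂ))
  rw [hM.charpoly_eq, Polynomial.eval_prod] at h
  have e : Matrix.scalar ι (-(s : ℂ)) - M = -((s : ℂ) • (1 : Matrix ι ι ℂ) + M) := by
    rw [Matrix.scalar_apply, ← Matrix.smul_one_eq_diagonal]
    module
  rw [e, Matrix.det_neg] at h
  simp only [Polynomial.eval_sub, Polynomial.eval_X, Polynomial.eval_C] at h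
  have e2 : ∏ i, (-(s : ℂ) - (hM.eigenvalues i : ℂ))
      = (-1) ^ Fintype.card ι * ∏ i, ((s : ℂ) + hM.eigenvalues i) := by
    rw [← Finset.card_univ, ← Finset.prod_const, ← Finset.prod_mul_distrib]
    exact Finset.prod_congr rfl fun i _ => by ring
  simp only [RCLike.ofReal, Algebra.cast] at h
  push_cast
  have := h.symm.trans e2
  exact mul_left_cancel₀ (pow_ne_zero _ (by norm_num)) this

theorem eta_diagonal (d : ι → ℝ) :
    eta (Matrix.diagonal fun i => (d i : ℂ)) = ∑ i, Real.negMulLog (d i) := by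
  rw [eta, Matrix.charpoly_diagonal, Polynomial.roots_prod _ _
    (Finset.prod_ne_zero_iff.2 fun i _ => Polynomial.X_sub_C_ne_zero _)]
  simp

theorem eta_smul {M : Matrix ι ι ℂ} (hM : M.IsHermitian) (c : ℝ) :
    eta ((c : ℂ) • M) = c * eta M + Real.negMulLog c * M.trace.re := by
  have h : (c : ℂ) • M = (hM.eigenvectorUnitary : Matrix ι ι ℂ) *
      Matrix.diagonal (fun i => ((c * hM.eigenvalues i : ℝ) : ℂ)) *
      (hM.eigenvectorUnitary : Matrix ι ι ℂ)ᴴ := by
    conv_lhs => rw [hM.spectral_theorem, Unitary.conjStarAlgAut_apply]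
    rw [← Matrix.smul_mul, ← Matrix.mul_smul, Matrix.star_eq_conjTranspose, ← Matrix.diagonal_smul]
    congr 3
    funext i
    simp
  rw [h, eta_unitary_conj (Unitary.coe_star_mul_self _), eta_eq hM, trace_re_eq hM,
    Finset.mul_sum, Finset.mul_sum, ← Finset.sum_add_distrib, eta_diagonal]
  refine Finset.sum_congr rfl fun i _ => ?_
  simp only [Real.negMulLog_mul]
  ring

/-- If a signed combination of `log (x k + s)` with vanishing total and first moment is
nonnegative for every `s > 0`, then the same combination of `-x log x` is nonnegative. -/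
theorem sum_negMulLog_nonneg {K : Type*} (S : Finset K) (c x : K → ℝ) (hx : ∀ k ∈ S, 0 ≤ x k)
    (h0 : ∑ k ∈ S, c k = 0) (h1 : ∑ k ∈ S, c k * x k = 0)
    (hd : ∀ s : ℝ, 0 < s → 0 ≤ ∑ k ∈ S, c k * Real.log (x k + s)) :
    0 ≤ ∑ k ∈ S, c k * Real.negMulLog (x k) := by
  set D : ℝ → ℝ := fun s => ∑ k ∈ S, c k * ((x k + s) * Real.log (x k + s)) with hD
  have hcont : ContinuousOn D (Set.Ici 0) :=
    (continuous_finsetSum S fun k _ => continuous_const.mul
      (Real.continuous_mul_log.comp (continuous_const.add continuous_id))).continuousOn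
  have hder : ∀ s : ℝ, 0 < s → HasDerivAt D (∑ k ∈ S, c k * (Real.log (x k + s) + 1)) s := by
    intro s hs
    refine HasDerivAt.fun_sum fun k hk => HasDerivAt.const_mul (c k) ?_
    have hne : x k + s ≠ 0 := by have := hx k hk; positivity
    simpa [Function.comp_def] using
      (Real.hasDerivAt_mul_log hne).comp s ((hasDerivAt_id s).const_add (x k))
  have hmono : MonotoneOn D (Set.Ici 0) := by
    refine monotoneOn_of_deriv_nonneg (convex_Ici 0) hcont ?_ ?_
    · rw [interior_Ici]
      exact fun s hs => (hder s hs).differentiableAt.differentiableWithinAt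
    · rw [interior_Ici]
      intro s hs
      rw [(hder s hs).deriv]
      have e : ∑ k ∈ S, c k * (Real.log (x k + s) + 1) = ∑ k ∈ S, c k * Real.log (x k + s) := by
        simp only [mul_add, Finset.sum_add_distrib, mul_one, h0, add_zero]
      rw [e]
      exact hd s hs
  have hlim : Tendsto D atTop (𝓝 0) := by
    have hs1 : Tendsto (fun T : ℝ => ∑ k ∈ S, c k * (x k * Real.log (1 + x k / T)
        + T * Real.log (1 + x k / T))) atTop (𝓝 (∑ k ∈ S, c k * (x k * Real.log 1 + x k))) := by
      refine tendsto_finsetSum S fun k _ => Tendsto.const_mul _ (Tendsto.add ?_ ?_)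
      · refine Tendsto.const_mul _ ((Real.continuousAt_log one_ne_zero).tendsto.comp ?_)
        have h := Tendsto.const_add (1 : ℝ) ((tendsto_const_nhds (x := x k)).div_atTop tendsto_id)
        simpa using h
      · exact Real.tendsto_mul_log_one_add_div_atTop (x k)
    simp only [Real.log_one, mul_zero, zero_add, h1] at hs1
    refine hs1.congr' ?_
    filter_upwards [eventually_gt_atTop (0 : ℝ)] with T hT
    have e : ∀ k ∈ S, c k * ((x k + T) * Real.log (x k + T)) = c k * (x k * Real.log (1 + x k / T)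
        + T * Real.log (1 + x k / T)) + (c k * x k * Real.log T + c k * (T * Real.log T)) := by
      intro k hk
      have hk0 := hx k hk
      have : x k + T = T * (1 + x k / T) := by field_simp; ring
      rw [this, Real.log_mul hT.ne' (by positivity)]
      field_simp
      ring
    simp only [hD]
    rw [Finset.sum_congr rfl e, Finset.sum_add_distrib, Finset.sum_add_distrib, ← Finset.sum_mul,
      ← Finset.sum_mul, h0, h1]
    ring
  have h := ge_of_tendsto hlim (by
    filter_upwards [eventually_ge_atTop (0 : ℝ)] with T hT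
    exact hmono Set.self_mem_Ici hT hT)
  simp only [hD, add_zero] at h
  simp only [Real.negMulLog, neg_mul, mul_neg, Finset.sum_neg_distrib]
  linarith

end Vale.Agent.P358
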