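import Mathlib
import Vale.Agent.P358.Eta

namespace Vale.Agent.P358

open Matrix Real Finset
open scoped ComplexOrder

variable {n m : Type} [Fintype n] [DecidableEq n] [Fintype m] [DecidableEq m]

lemma diag_eq_sum {M : Matrix n n ℂ} (hM : M.IsHermitian) (i : n) :
    (M i i).re = ∑ j, Complex.normSq ((hM.eigenvectorUnitary : Matrix n n ℂ) i j)
      * hM.eigenvalues j := by
  set U : Matrix n n ℂ := (hM.eigenvectorUnitary : Matrix n n ℂ) with hU
  have h : M = U * diagonal (fun j => (hM.eigenvalues j : ℂ)) * star U := by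
    conv_lhs => rw [hM.spectral_theorem]
    simp [hU, Function.comp_def]
  conv_lhs => rw [h]
  rw [mul_apply, Complex.re_sum]
  refine Finset.sum_congr rfl fun j _ => ?_
  rw [mul_diagonal, star_apply, RCLike.star_def]
  simp [Complex.normSq_apply, Complex.mul_re, Complex.mul_im]
  ring

lemma normSq_row {M : Matrix n n ℂ} (hM : M.IsHermitian) (i : n) :
    ∑ j, Complex.normSq ((hM.eigenvectorUnitary : Matrix n n ℂ) i j) = 1 := by
  set U : Matrix n n ℂ := (hM.eigenvectorUnitary : Matrix n n ℂ) with hU
  have h := congrFun (congrFun (Unitary.coe_mul_star_self hM.eigenvectorUnitary) i) i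
  simp only [Unitary.coe_star, ← hU] at h
  rw [mul_apply, one_apply_eq] at h
  have h' := congrArg Complex.re h
  rw [Complex.re_sum, Complex.one_re] at h'
  rw [← h']
  refine Finset.sum_congr rfl fun j _ => ?_
  rw [star_apply, RCLike.star_def]
  simp [Complex.normSq_apply, Complex.mul_re]

lemma normSq_col {M : Matrix n n ℂ} (hM : M.IsHermitian) (j : n) :
    ∑ i, Complex.normSq ((hM.eigenvectorUnitary : Matrix n n ℂ) i j) = 1 := by
  set U : Matrix n n ℂ := (hM.eigenvectorUnitary : Matrix n n ℂ) with hU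
  have h := congrFun (congrFun (Unitary.coe_star_mul_self hM.eigenvectorUnitary) j) j
  simp only [Unitary.coe_star, ← hU] at h
  rw [mul_apply, one_apply_eq] at h
  have h' := congrArg Complex.re h
  rw [Complex.re_sum, Complex.one_re] at h'
  rw [← h']
  refine Finset.sum_congr rfl fun i _ => ?_
  rw [star_apply, RCLike.star_def]
  simp [Complex.normSq_apply, Complex.mul_re]

/-- The entropy is at most the entropy of the diagonal. -/
theorem eta_le_diag {M : Matrix n n ℂ} (hM : M.PosSemidef) :
    eta M ≤ ∑ i, negMulLog (M i i).re := by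
  rw [eta_eq hM.1]
  calc ∑ j, negMulLog (hM.1.eigenvalues j)
      = ∑ i, ∑ j, Complex.normSq ((hM.1.eigenvectorUnitary : Matrix n n ℂ) i j)
          • negMulLog (hM.1.eigenvalues j) := by
        rw [Finset.sum_comm]
        refine Finset.sum_congr rfl fun j _ => ?_
        simp only [smul_eq_mul, ← Finset.sum_mul, normSq_col, one_mul]
    _ ≤ _ := Finset.sum_le_sum fun i _ => by
        rw [diag_eq_sum hM.1 i]
        exact concaveOn_negMulLog.le_map_sum (fun j _ => Complex.normSq_nonneg _)
          (normSq_row hM.1 i) (fun j _ => hM.eigenvalues_nonneg j)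

/-- Gibbs inequality for finitely supported weights. -/
lemma negMulLog_gibbs {p q : ℝ} (hp : 0 ≤ p) (hq : 0 ≤ q) (h : q = 0 → p = 0) :
    negMulLog p ≤ -(p * log q) + (q - p) := by
  rcases hp.eq_or_lt with rfl | hp'
  · simp [hq]
  · have hq' : 0 < q := hq.lt_of_ne fun h' => hp'.ne' (h h'.symm)
    have := log_le_sub_one_of_pos (div_pos hq' hp')
    rw [log_div hq'.ne' hp'.ne'] at this
    rw [negMulLog, neg_mul]
    have := mul_le_mul_of_nonneg_left this hp
    rw [mul_sub p (q / p) 1, mul_div_cancel₀ _ hp'.ne'] at this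
    nlinarith

/-- Subadditivity of Shannon entropy over n binary coordinates. -/
theorem shannon_subadd {ι : Type} [Fintype ι] [DecidableEq ι] {α : Type} [Fintype α] [DecidableEq α]
    (p : (ι → α) → ℝ) (hp : ∀ x, 0 ≤ p x) (hs : ∑ x, p x = 1) :
    ∑ x, negMulLog (p x)
      ≤ ∑ i, ∑ a, negMulLog (∑ x ∈ univ.filter (fun x => x i = a), p x) := by
  set q : ι → α → ℝ := fun i a => ∑ x ∈ univ.filter (fun x => x i = a), p x with hq
  have q0 : ∀ i a, 0 ≤ q i a := fun i a => Finset.sum_nonneg fun x _ => hp x
  have qs : ∀ i, ∑ a, q i a = 1 := fun i => by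
    rw [hq, ← hs]; exact Finset.sum_fiberwise univ (fun x => x i) p
  have hle : ∀ x i, p x ≤ q i (x i) := fun x i =>
    Finset.single_le_sum (f := p) (fun y _ => hp y) (by simp)
  have hpt : ∀ x, negMulLog (p x)
      ≤ -(p x * ∑ i, log (q i (x i))) + ((∏ i, q i (x i)) - p x) := by
    intro x
    rcases (hp x).eq_or_lt with h | h
    · rw [← h]; simp [Finset.prod_nonneg fun i _ => q0 i (x i)]
    · have hpos : ∀ i, 0 < q i (x i) := fun i => lt_of_lt_of_le h (hle x i)
      have := negMulLog_gibbs h.le (Finset.prod_nonneg fun i (_ : i ∈ univ) => q0 i (x i))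
        (fun h0 => absurd h0 (Finset.prod_pos fun i _ => hpos i).ne')
      rwa [log_prod fun i _ => (hpos i).ne'] at this
  refine (Finset.sum_le_sum fun x _ => hpt x).trans (le_of_eq ?_)
  rw [Finset.sum_add_distrib, Finset.sum_sub_distrib, ← Fintype.prod_sum, hs]
  simp only [qs, Finset.prod_const_one, sub_self, add_zero, Finset.mul_sum, Finset.sum_neg_distrib]
  rw [Finset.sum_comm, ← Finset.sum_neg_distrib]
  refine Finset.sum_congr rfl fun i _ => ?_
  rw [← Finset.sum_neg_distrib, ← Finset.sum_fiberwise univ (fun x => x i) (fun x => -(p x * log (q i (x i))))]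
  refine Finset.sum_congr rfl fun a _ => ?_
  rw [negMulLog, neg_mul, Finset.sum_mul, ← Finset.sum_neg_distrib]
  refine Finset.sum_congr rfl fun x hx => ?_
  rw [(Finset.mem_filter.1 hx).2]

end Vale.Agent.P358
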