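import Mathlib

namespace Vale.Agent.P358

open Real Set

/-- Squared Bloch radius of the output of a pure input with excitation q. -/
noncomputable def radSq (g v q : ℝ) : ℝ := 1 - 4 * g * v * (1 - v) - 4 * g * (1 - g) * (q - v) ^ 2

/-- Entropy in nats of the output of a pure input with excitation q. -/
noncomputable def pureEnt (g v q : ℝ) : ℝ := binEntropy ((1 + Real.sqrt (radSq g v q)) / 2)

lemma radSq_eq (g v q : ℝ) : radSq g v q
    = (1 - 2 * ((1 - g) * q + g * v)) ^ 2 + 4 * (1 - g) * q * (1 - q) := by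
  unfold radSq; ring

lemma radSq_pos {g v q : ℝ} (hg : g < 1) (hq : q ∈ Ioo (0 : ℝ) 1) :
    0 < radSq g v q := by
  rw [radSq_eq]
  have : 0 < 4 * (1 - g) * q * (1 - q) :=
    mul_pos (mul_pos (mul_pos (by norm_num) (by linarith)) hq.1) (by linarith [hq.2])
  nlinarith [sq_nonneg (1 - 2 * ((1 - g) * q + g * v))]

lemma radSq_lt_one {g v q : ℝ} (hg0 : 0 < g) (hg : g < 1) (hv : v ∈ Icc (0 : ℝ) 1)
    (hq : q ∈ Ioo (0 : ℝ) 1) : radSq g v q < 1 := by
  unfold radSq
  rcases eq_or_ne q v with h | h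
  · subst h
    nlinarith [mul_pos (mul_pos hg0 hq.1) (by linarith [hq.2] : 0 < 1 - q)]
  · have h1 : 0 < g * (1 - g) * (q - v) ^ 2 :=
      mul_pos (mul_pos hg0 (by linarith)) (sq_pos_of_ne_zero (sub_ne_zero.2 h))
    nlinarith [mul_nonneg (mul_nonneg hg0.le hv.1) (by linarith [hv.2] : 0 ≤ 1 - v)]

/-- The derivative factor artanh r / r, written with logarithms. -/
noncomputable def athDiv (r : ℝ) : ℝ := (log (1 + r) - log (1 - r)) / (2 * r)

lemma hasDerivAt_half_logdiff {x : ℝ} (h0 : -1 < x) (h1 : x < 1) :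
    HasDerivAt (fun r => (log (1 + r) - log (1 - r)) / 2) (1 / (1 - x ^ 2)) x := by
  have a : HasDerivAt (fun r : ℝ => 1 + r) 1 x := (hasDerivAt_id x).const_add 1
  have b : HasDerivAt (fun r : ℝ => 1 - r) (-1) x := (hasDerivAt_id x).const_sub 1
  have h := ((a.log (by linarith)).sub (b.log (by linarith))).div_const 2
  refine h.congr_deriv ?_
  have e1 : (1 + x) ≠ 0 := by linarith
  have e2 : (1 - x) ≠ 0 := by linarith
  rw [show (1 - x ^ 2) = (1 + x) * (1 - x) by ring]
  field_simp
  ring

lemma half_logdiff_bounds {r : ℝ} (h0 : 0 ≤ r) (h1 : r < 1) :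
    r ≤ (log (1 + r) - log (1 - r)) / 2 ∧
      (log (1 + r) - log (1 - r)) / 2 ≤ r / (1 - r ^ 2) := by
  set A : ℝ → ℝ := fun r => (log (1 + r) - log (1 - r)) / 2 with hA
  constructor
  · have hm : MonotoneOn (fun x => A x - x) (Icc 0 r) := by
      refine monotoneOn_of_hasDerivWithinAt_nonneg (f' := fun x => 1 / (1 - x ^ 2) - 1)
        (convex_Icc 0 r) ?_ (fun x hx => ?_) (fun x hx => ?_)
      · intro x hx
        exact ((hasDerivAt_half_logdiff (by linarith [hx.1]) (by linarith [hx.2])).sub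
          (hasDerivAt_id x)).continuousAt.continuousWithinAt
      · rw [interior_Icc] at hx
        exact ((hasDerivAt_half_logdiff (by linarith [hx.1]) (by linarith [hx.2])).sub
          (hasDerivAt_id x)).hasDerivWithinAt
      · rw [interior_Icc] at hx
        have hx1 : x < 1 := lt_trans hx.2 h1
        have hd : 0 < 1 - x ^ 2 := by nlinarith [hx.1]
        rw [sub_nonneg, le_div_iff₀ hd]; nlinarith
    have h := hm (left_mem_Icc.2 h0) (right_mem_Icc.2 h0) h0
    simp only [hA] at h
    norm_num at h ⊢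
    linarith
  · have hd : ∀ x, 0 ≤ x → x ≤ r → HasDerivAt (fun x => x / (1 - x ^ 2) - A x)
        (((1 - x ^ 2) - x * (-(2 * x))) / (1 - x ^ 2) ^ 2 - 1 / (1 - x ^ 2)) x := by
      intro x hx0 hxr
      have hx1 : x < 1 := lt_of_le_of_lt hxr h1
      have b : HasDerivAt (fun y : ℝ => 1 - y ^ 2) (-(2 * x)) x := by
        simpa using (hasDerivAt_pow 2 x).const_sub 1
      have := ((hasDerivAt_id x).div b (by nlinarith)).sub
        (hasDerivAt_half_logdiff (by linarith) hx1)
      simp only [id, one_mul] at this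
      exact this
    have hm : MonotoneOn (fun x => x / (1 - x ^ 2) - A x) (Icc 0 r) := by
      refine monotoneOn_of_hasDerivWithinAt_nonneg
        (f' := fun x => ((1 - x ^ 2) - x * (-(2 * x))) / (1 - x ^ 2) ^ 2 - 1 / (1 - x ^ 2))
        (convex_Icc 0 r) (fun x hx => (hd x hx.1 hx.2).continuousAt.continuousWithinAt)
        (fun x hx => ?_) (fun x hx => ?_)
      · rw [interior_Icc] at hx
        exact (hd x hx.1.le hx.2.le).hasDerivWithinAt
      · rw [interior_Icc] at hx
        have hp : 0 < 1 - x ^ 2 := by nlinarith [hx.1, hx.2]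
        rw [sub_nonneg, div_le_div_iff₀ hp (by positivity)]
        nlinarith [mul_nonneg (sq_nonneg x) hp.le]
    have h := hm (left_mem_Icc.2 h0) (right_mem_Icc.2 h0) h0
    simp only [hA] at h
    norm_num at h ⊢
    linarith

/-- The output entropy of pure inputs is convex in the excitation. -/
theorem pureEnt_convexOn {g v : ℝ} (hg : g ∈ Icc (0 : ℝ) 1) (hv : v ∈ Icc (0 : ℝ) 1) :
    ConvexOn ℝ (Icc 0 1) (pureEnt g v) := by
  have hconst : ∀ c : ℝ, (∀ q, radSq g v q = c) → ConvexOn ℝ (Icc 0 1) (pureEnt g v) := by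
    intro c hc
    have : pureEnt g v = fun _ => binEntropy ((1 + Real.sqrt c) / 2) := by
      funext q; simp [pureEnt, hc]
    rw [this]; exact convexOn_const _ (convex_Icc _ _)
  rcases hg.1.eq_or_lt with h | hg0
  · exact hconst 1 fun q => by simp [radSq, ← h]
  rcases hg.2.eq_or_lt with h | hg1
  · exact hconst (1 - 4 * v * (1 - v)) fun q => by simp [radSq, h]
  set a := 4 * g * (1 - g) with ha
  have ha0 : 0 < a := mul_pos (mul_pos (by norm_num) hg0) (by linarith)
  set r : ℝ → ℝ := fun q => Real.sqrt (radSq g v q) with hr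
  have hrad : ∀ q, HasDerivAt (radSq g v) (-(2 * a * (q - v))) q := by
    intro q
    have h := ((((hasDerivAt_id q).sub_const v).pow 2).const_mul a).const_sub
      (1 - 4 * g * v * (1 - v))
    simp only [Pi.pow_apply, id, mul_one] at h
    unfold radSq
    rw [← ha]
    refine h.congr_deriv ?_
    push_cast; ring
  have hrin : ∀ q ∈ Ioo (0 : ℝ) 1, 0 < r q ∧ r q < 1 ∧
      HasDerivAt r (-(a * (q - v)) / r q) q ∧ r q ^ 2 = radSq g v q := by
    intro q hq
    have h0 := radSq_pos (v := v) hg1 hq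
    have h1 := radSq_lt_one hg0 hg1 hv hq
    refine ⟨Real.sqrt_pos.2 h0, ?_, ?_, Real.sq_sqrt h0.le⟩
    · calc r q < Real.sqrt 1 := Real.sqrt_lt_sqrt h0.le h1
        _ = 1 := Real.sqrt_one
    · have := (hrad q).sqrt h0.ne'
      simp only [hr]
      convert this using 1
      field_simp
  set f' : ℝ → ℝ := fun q => a * (q - v) * athDiv (r q) with hf'
  have hf1 : ∀ q ∈ Ioo (0 : ℝ) 1, HasDerivAt (pureEnt g v) (f' q) q := by
    intro q hq
    obtain ⟨r0, r1, rd, -⟩ := hrin q hq
    have hb := hasDerivAt_binEntropy (p := (1 + r q) / 2) (by linarith) (by linarith)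
    have := hb.comp q ((rd.const_add 1).div_const 2)
    refine this.congr_deriv ?_
    simp only [hf', athDiv]
    rw [show 1 - (1 + r q) / 2 = (1 - r q) / 2 by ring, log_div (by linarith) (by norm_num),
      log_div (by linarith) (by norm_num)]
    field_simp
    ring
  have hf2 : ∀ q ∈ Ioo (0 : ℝ) 1, ∃ f'' : ℝ, 0 ≤ f'' ∧ HasDerivAt f' f'' q := by
    intro q hq
    obtain ⟨r0, r1, rd, rsq⟩ := hrin q hq
    have hA := hasDerivAt_half_logdiff (x := r q) (by linarith) r1
    have hath : HasDerivAt athDiv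
        ((1 / (1 - r q ^ 2) * r q - (log (1 + r q) - log (1 - r q)) / 2 * 1) / r q ^ 2) (r q) := by
      refine (hA.div (hasDerivAt_id (r q)) r0.ne').congr_of_eventuallyEq ?_
      filter_upwards with x
      simp only [athDiv, id, Pi.div_apply]
      rw [div_div]
    have h := (((hasDerivAt_id q).sub_const v).const_mul a).mul (hath.comp q rd)
    refine ⟨_, ?_, h⟩
    obtain ⟨b1, b2⟩ := half_logdiff_bounds r0.le r1
    simp only [id, mul_one, athDiv, Function.comp]
    set A := (log (1 + r q) - log (1 - r q)) / 2 with hAdef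
    rw [show (log (1 + r q) - log (1 - r q)) / (2 * r q) = A / r q by rw [hAdef, div_div]]
    have hd : 0 < 1 - r q ^ 2 := by nlinarith
    have hau : a * (q - v) ^ 2 ≤ 1 - r q ^ 2 := by
      rw [rsq, radSq, ← ha]
      nlinarith [mul_nonneg (mul_nonneg hg0.le hv.1) (by linarith [hv.2] : 0 ≤ 1 - v)]
    have hK : 0 ≤ r q / (1 - r q ^ 2) - A := by linarith
    have key : a * (q - v) ^ 2 * (r q / (1 - r q ^ 2) - A) ≤ r q ^ 2 * A := by
      have h1 := mul_le_mul_of_nonneg_right hau hK
      have h2 : (1 - r q ^ 2) * (r q / (1 - r q ^ 2) - A) = r q - A * (1 - r q ^ 2) := by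
        rw [mul_sub, mul_div_cancel₀ _ hd.ne']; ring
      nlinarith
    rw [show a * (A / r q) + a * (q - v) *
        ((1 / (1 - r q ^ 2) * r q - A) / r q ^ 2 * (-(a * (q - v)) / r q))
      = a / r q ^ 3 * (r q ^ 2 * A - a * (q - v) ^ 2 * (r q / (1 - r q ^ 2) - A)) by
        field_simp; ring]
    exact mul_nonneg (by positivity) (by linarith)
  refine convexOn_of_deriv2_nonneg (convex_Icc 0 1) ?_ ?_ ?_ ?_
  · unfold pureEnt radSq; fun_prop
  · rw [interior_Icc]
    exact fun q hq => (hf1 q hq).differentiableAt.differentiableWithinAt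
  · rw [interior_Icc]
    intro q hq
    obtain ⟨f'', -, h⟩ := hf2 q hq
    refine (h.congr_of_eventuallyEq ?_).differentiableAt.differentiableWithinAt
    filter_upwards [isOpen_Ioo.mem_nhds hq] with x hx
    exact (hf1 x hx).deriv
  · rw [interior_Icc]
    intro q hq
    obtain ⟨f'', hn, h⟩ := hf2 q hq
    have : HasDerivAt (deriv (pureEnt g v)) f'' q := h.congr_of_eventuallyEq (by
      filter_upwards [isOpen_Ioo.mem_nhds hq] with x hx
      exact (hf1 x hx).deriv)
    show 0 ≤ deriv (deriv (pureEnt g v)) q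
    rw [this.deriv]; exact hn

end Vale.Agent.P358
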