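import Mathlib
import Vale.Agent.P358.ChannelBasics
import Vale.Agent.P358.EntropyBasics
import Vale.Agent.P358.Scalar

/-!
Upper bound, achievability, and the value of the Holevo capacities, given the site inequality.
-/

open Matrix Finset Real
open scoped ComplexOrder

namespace Vale.Agent.P358

variable {g v : ℝ} {n : ℕ}

/-- The output-entropy lower bound used below. -/
def SiteBound (g v : ℝ) (n : ℕ) : Prop :=
  ∀ ρ : Matrix (Fin n → Fin 2) (Fin n → Fin 2) ℂ, IsState ρ →
    ∑ l, pureEnt g v (excited ρ l) ≤ eta (gadPow g v n ρ)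

lemma entropy_eq {ι : Type} [Fintype ι] [DecidableEq ι] {M : Matrix ι ι ℂ} (hM : M.IsHermitian) :
    entropy M = eta M / Real.log 2 := by
  rw [entropy, dif_pos hM, eta_eq hM]

lemma rate_eq (g v q : ℝ) :
    rate g v q = (binEntropy ((1 - g) * q + g * v) - pureEnt g v q) / Real.log 2 := by
  rw [rate, pureEnt, radSq_eq]

lemma rate_bddAbove (g v : ℝ) : BddAbove (rate g v '' Set.Icc 0 1) :=
  (isCompact_Icc.image (by unfold rate; fun_prop)).bddAbove

lemma rate_le (g v : ℝ) {q : ℝ} (hq : q ∈ Set.Icc (0 : ℝ) 1) :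
    rate g v q ≤ capacityValue g v :=
  le_csSup (rate_bddAbove g v) ⟨q, hq, rfl⟩

/-- Subadditivity: entropy is at most the sum of the one-site excitation entropies. -/
theorem eta_le_excited {M : Matrix (Fin n → Fin 2) (Fin n → Fin 2) ℂ} (hM : IsState M) :
    eta M ≤ ∑ l, binEntropy (excited M l) := by
  refine (eta_le_diag hM.1).trans ?_
  have hd : ∀ i, 0 ≤ (M i i).re := fun i => (Complex.le_def.1 (hM.1.diag_nonneg (i := i))).1
  have hsum : ∑ a, (M a a).re = 1 := by
    have := congrArg Complex.re hM.2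
    simpa [Matrix.trace, Complex.re_sum] using this
  refine (shannon_subadd (fun i : Fin n → Fin 2 => (M i i).re) hd hsum).trans (le_of_eq ?_)
  refine Finset.sum_congr rfl fun l _ => ?_
  rw [Fin.sum_univ_two, binEntropy_eq_negMulLog_add_negMulLog_one_sub, add_comm]
  have h0 : ∑ x ∈ univ.filter (fun x : Fin n → Fin 2 => x l = 0), (M x x).re
      = 1 - excited M l := by
    rw [← hsum, excited, ← Finset.sum_filter_add_sum_filter_not univ (fun x => x l = 1),
      add_sub_cancel_left]
    refine Finset.sum_congr (Finset.filter_congr fun x _ => ?_) fun _ _ => rfl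
    constructor <;> intro h <;> omega
  rw [h0]
  rfl

/-- Every Holevo value is at most n times the single-letter value. -/
theorem holevo_le (hg : g ∈ Set.Icc (0 : ℝ) 1) (hv : v ∈ Set.Icc (0 : ℝ) 1)
    (hlow : SiteBound g v n) {x : ℝ} (hx : x ∈ holevoValues g v n) :
    x ≤ n * capacityValue g v := by
  obtain ⟨m, p, ρ, hp, hs, hρ, rfl⟩ := hx
  have hstate : IsState (∑ a, (p a : ℂ) • ρ a) := by
    refine ⟨Matrix.posSemidef_sum _ fun a _ => (hρ a).1.smul (by exact_mod_cast hp a), ?_⟩
    simp only [Matrix.trace_sum, Matrix.trace_smul, (hρ _).2, smul_eq_mul, mul_one]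
    exact_mod_cast hs
  have hout := gadPow_isState hg hv hstate
  set qb : Fin n → ℝ := fun l => excited (∑ a, (p a : ℂ) • ρ a) l with hqb
  have hq : ∀ l, qb l ∈ Set.Icc (0 : ℝ) 1 := fun l => excited_mem hstate l
  have hsum : ∑ a, (p a : ℂ) • gadPow g v n (ρ a) = gadPow g v n (∑ a, (p a : ℂ) • ρ a) :=
    (gadPow_sum g v _ _ _).symm
  rw [hsum, entropy_eq hout.1.1]
  simp only [fun a => entropy_eq (gadPow_isState hg hv (hρ a)).1.1]
  have h1 : eta (gadPow g v n (∑ a, (p a : ℂ) • ρ a))
      ≤ ∑ l, binEntropy ((1 - g) * qb l + g * v) := by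
    refine (eta_le_excited hout).trans (le_of_eq ?_)
    simp only [excited_gadPow g v hstate.2, hqb]
  have h2 : ∑ l, pureEnt g v (qb l) ≤ ∑ a, p a * eta (gadPow g v n (ρ a)) := by
    calc ∑ l, pureEnt g v (qb l) ≤ ∑ l, ∑ a, p a * pureEnt g v (excited (ρ a) l) := by
          refine Finset.sum_le_sum fun l _ => ?_
          simp only [hqb, excited_sum]
          exact (pureEnt_convexOn hg hv).map_sum_le (fun a _ => hp a) hs
            (fun a _ => excited_mem (hρ a) l)
      _ = ∑ a, p a * ∑ l, pureEnt g v (excited (ρ a) l) := by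
          rw [Finset.sum_comm]; simp only [Finset.mul_sum]
      _ ≤ _ := Finset.sum_le_sum fun a _ =>
          mul_le_mul_of_nonneg_left (hlow _ (hρ a)) (hp a)
  have h3 : ∑ l, rate g v (qb l) ≤ n * capacityValue g v := by
    have := Finset.sum_le_sum (s := univ) fun l _ => rate_le g v (hq l)
    simpa using this
  refine le_trans ?_ h3
  simp only [rate_eq, ← Finset.sum_div, Finset.sum_sub_distrib, ← mul_div_assoc, ← sub_div]
  exact div_le_div_of_nonneg_right (sub_le_sub h1 h2) (Real.log_pos (by norm_num)).le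

lemma negMulLog_prod {ι : Type} [Fintype ι] [DecidableEq ι] (d : ι → ℝ) (s : Finset ι) :
    negMulLog (∏ i ∈ s, d i) = ∑ i ∈ s, negMulLog (d i) * ∏ j ∈ s.erase i, d j := by
  induction s using Finset.induction with
  | empty => simp
  | insert a s ha ih =>
    rw [Finset.prod_insert ha, negMulLog_mul, ih, Finset.sum_insert ha, Finset.erase_insert ha,
      Finset.mul_sum]
    congr 1
    · ring
    · refine Finset.sum_congr rfl fun i hi => ?_
      have hne : a ≠ i := fun h => ha (h ▸ hi)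
      rw [Finset.erase_insert_of_ne hne, Finset.prod_insert (fun h => ha (Finset.mem_of_mem_erase h))]
      ring

lemma prod_entropy (d : Fin n → Fin 2 → ℝ) (hd : ∀ l, ∑ a, d l a = 1) :
    ∑ x : Fin n → Fin 2, negMulLog (∏ l, d l (x l)) = ∑ l, ∑ a, negMulLog (d l a) := by
  simp only [negMulLog_prod]
  rw [Finset.sum_comm]
  refine Finset.sum_congr rfl fun l _ => ?_
  have : ∀ x : Fin n → Fin 2, negMulLog (d l (x l)) * ∏ j ∈ univ.erase l, d j (x j)
      = ∏ j, (if j = l then negMulLog (d j (x j)) else d j (x j)) := by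
    intro x
    rw [← Finset.mul_prod_erase univ _ (Finset.mem_univ l)]
    simp only [if_true]
    congr 1
    exact Finset.prod_congr rfl fun j hj => by rw [if_neg (Finset.ne_of_mem_erase hj)]
  simp only [this]
  rw [← Fintype.prod_sum (fun j a => if j = l then negMulLog (d j a) else d j a),
    Finset.prod_eq_single l (fun j _ hj => by simp only [hj, if_false, hd]) (by simp)]
  simp

/-- Entropy of a tensor product of one-site states. -/
theorem eta_prod (M : Fin n → Matrix (Fin 2) (Fin 2) ℂ) (hM : ∀ l, (M l).IsHermitian)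
    (ht : ∀ l, (M l).trace = 1) :
    eta (Matrix.of fun i j : Fin n → Fin 2 => ∏ l, M l (i l) (j l)) = ∑ l, eta (M l) := by
  set U : Fin n → Matrix (Fin 2) (Fin 2) ℂ :=
    fun l => ((hM l).eigenvectorUnitary : Matrix (Fin 2) (Fin 2) ℂ) with hU
  set e : Fin n → Fin 2 → ℝ := fun l => (hM l).eigenvalues with he
  set W : Matrix (Fin n → Fin 2) (Fin n → Fin 2) ℂ :=
    Matrix.of fun i j => ∏ l, U l (i l) (j l) with hW
  have hUU : ∀ l, (U l)ᴴ * U l = 1 := fun l => Unitary.coe_star_mul_self (hM l).eigenvectorUnitary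
  have hWW : Wᴴ * W = 1 := by
    ext i j
    simp only [Matrix.mul_apply, conjTranspose_apply, hW, Matrix.of_apply, star_prod,
      ← Finset.prod_mul_distrib]
    rw [← Fintype.prod_sum (fun l a => star (U l a (i l)) * U l a (j l))]
    have : ∀ l, ∑ a, star (U l a (i l)) * U l a (j l) = if i l = j l then 1 else 0 := by
      intro l
      have := congrFun (congrFun (hUU l) (i l)) (j l)
      simpa [Matrix.mul_apply, Matrix.one_apply] using this
    simp only [this, Matrix.one_apply]
    by_cases h : i = j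
    · subst h; simp
    · obtain ⟨l, hl⟩ := Function.ne_iff.1 h
      rw [if_neg h]; exact Finset.prod_eq_zero (Finset.mem_univ l) (by simp [hl])
  have hspec : ∀ l a b, M l a b = ∑ c, U l a c * (e l c : ℂ) * star (U l b c) := by
    intro l a b
    conv_lhs => rw [(hM l).spectral_theorem]
    simp [Matrix.mul_apply, Matrix.diagonal_apply, hU, he]
  have hfac : (Matrix.of fun i j : Fin n → Fin 2 => ∏ l, M l (i l) (j l))
      = W * Matrix.diagonal (fun x => ((∏ l, e l (x l) : ℝ) : ℂ)) * Wᴴ := by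
    ext i j
    simp only [Matrix.mul_apply, Matrix.diagonal_apply, mul_ite, mul_zero, Finset.sum_ite_eq',
      Finset.mem_univ, if_true, conjTranspose_apply, hW, Matrix.of_apply, hspec, Fintype.prod_sum,
      Finset.prod_mul_distrib, star_prod, Complex.ofReal_prod]
  have hsum : ∀ l, ∑ a, e l a = 1 := by
    intro l
    have := (hM l).trace_eq_sum_eigenvalues
    rw [ht l] at this
    have := congrArg Complex.re this
    simpa [Complex.re_sum, he] using this.symm
  rw [hfac, eta_unitary_conj hWW, eta_diagonal, prod_entropy e hsum]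
  exact Finset.sum_congr rfl fun l _ => (eta_eq (hM l)).symm

lemma eta_two {M : Matrix (Fin 2) (Fin 2) ℂ} (hM : M.PosSemidef) (ht : M.trace = 1) {r : ℝ}
    (hr : 0 ≤ r) (hdet : M.det = (((1 - r ^ 2) / 4 : ℝ) : ℂ)) :
    eta M = binEntropy ((1 + r) / 2) := by
  rw [eta_eq hM.1, Fin.sum_univ_two]
  have hs : hM.1.eigenvalues 0 + hM.1.eigenvalues 1 = 1 := by
    have := congrArg Complex.re hM.1.trace_eq_sum_eigenvalues
    simpa [ht, Fin.sum_univ_two] using this.symm
  have hp : hM.1.eigenvalues 0 * hM.1.eigenvalues 1 = (1 - r ^ 2) / 4 := by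
    have := congrArg Complex.re hM.1.det_eq_prod_eigenvalues
    rw [hdet] at this
    simpa [Fin.prod_univ_two, ← Complex.ofReal_pow] using this.symm
  set a := hM.1.eigenvalues 0
  have hb : hM.1.eigenvalues 1 = 1 - a := by linarith
  rw [hb] at hp ⊢
  rw [← binEntropy_eq_negMulLog_add_negMulLog_one_sub]
  have : (2 * a - 1) ^ 2 = r ^ 2 := by linear_combination (-4 : ℝ) * hp
  rcases sq_eq_sq_iff_eq_or_eq_neg.1 this with h | h
  · congr 1; linarith
  · rw [← binEntropy_one_sub]; congr 1; linarith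

/-- Off-diagonal sign. -/
def sgn (s : Fin 2) : ℝ := if s = 0 then 1 else -1

/-- Pure input state with excitation q and sign s. -/
noncomputable def pureIn (q : ℝ) (s : Fin 2) : Matrix (Fin 2) (Fin 2) ℂ :=
  !![((1 - q : ℝ) : ℂ), ((sgn s * Real.sqrt (q * (1 - q)) : ℝ) : ℂ);
     ((sgn s * Real.sqrt (q * (1 - q)) : ℝ) : ℂ), ((q : ℝ) : ℂ)]

lemma pureIn_psd {q : ℝ} (hq : q ∈ Set.Icc (0 : ℝ) 1) (s : Fin 2) : (pureIn q s).PosSemidef := by
  set u : Fin 2 → ℂ := ![((Real.sqrt (1 - q) : ℝ) : ℂ), ((sgn s * Real.sqrt q : ℝ) : ℂ)] with hu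
  have : pureIn q s = Matrix.vecMulVec u (star u) := by
    have h1 := Real.mul_self_sqrt (by linarith [hq.2] : 0 ≤ 1 - q)
    have h2 := Real.mul_self_sqrt hq.1
    have h3 : Real.sqrt (q * (1 - q)) = Real.sqrt q * Real.sqrt (1 - q) := Real.sqrt_mul hq.1 _
    have h4 : sgn s * sgn s = 1 := by unfold sgn; split_ifs <;> norm_num
    ext i j
    simp only [pureIn, Matrix.vecMulVec_apply, Pi.star_apply, hu, RCLike.star_def]
    fin_cases i <;> fin_cases j <;>
      simp [Complex.conj_ofReal, h3, ← Complex.ofReal_mul] <;> norm_cast <;>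
      first | linarith | ring1 | linear_combination -h1 | linear_combination -(sgn s * sgn s) * h2 - q * h4
  rw [this]
  exact Matrix.posSemidef_vecMulVec_self_star u

lemma gad_pureIn_det {q : ℝ} (hg : g ∈ Set.Icc (0 : ℝ) 1) (hq : q ∈ Set.Icc (0 : ℝ) 1)
    (s : Fin 2) :
    (gad g v (pureIn q s)).det = (((1 - radSq g v q) / 4 : ℝ) : ℂ) := by
  have h1 : Real.sqrt (1 - g) ^ 2 = 1 - g := Real.sq_sqrt (by linarith [hg.2])
  have h2 : Real.sqrt (q * (1 - q)) ^ 2 = q * (1 - q) :=
    Real.sq_sqrt (mul_nonneg hq.1 (by linarith [hq.2]))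
  have h4 : sgn s ^ 2 = 1 := by unfold sgn; split_ifs <;> norm_num
  rw [Matrix.det_fin_two]
  simp only [gad, pureIn, Matrix.cons_val', Matrix.cons_val_zero, Matrix.cons_val_one,
    Matrix.empty_val', Matrix.cons_val_fin_one, Matrix.of_apply]
  norm_cast
  simp only [radSq]
  linear_combination (-(sgn s ^ 2 * Real.sqrt (q * (1 - q)) ^ 2)) * h1
    + (-(sgn s ^ 2 * (1 - g))) * h2 + (-((1 - g) * (q * (1 - q)))) * h4

lemma gad_pureIn_trace (g v q : ℝ) (s : Fin 2) : (gad g v (pureIn q s)).trace = 1 := by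
  simp [Matrix.trace_fin_two, gad, pureIn]; ring

lemma gad_pureIn_psd {q : ℝ} (hg : g ∈ Set.Icc (0 : ℝ) 1) (hv : v ∈ Set.Icc (0 : ℝ) 1)
    (hq : q ∈ Set.Icc (0 : ℝ) 1) (s : Fin 2) : (gad g v (pureIn q s)).PosSemidef := by
  have : gad g v (pureIn q s) = ∑ k, kr g v k * pureIn q s * (kr g v k)ᴴ := by
    ext i j
    rw [gad_eq_sum, Matrix.sum_apply]
    simp only [coef_kraus hg hv, Matrix.mul_apply, conjTranspose_apply, Finset.sum_mul]
    rw [Finset.sum_comm, Finset.sum_congr rfl fun b _ => Finset.sum_comm, Finset.sum_comm]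
    refine Finset.sum_congr rfl fun k _ => Finset.sum_congr rfl fun b _ =>
      Finset.sum_congr rfl fun a _ => ?_
    ring
  rw [this]
  exact Matrix.posSemidef_sum _ fun k _ => (pureIn_psd hq s).mul_mul_conjTranspose_same _

/-- Product input attached to a sign string. -/
noncomputable def signIn (q : ℝ) (s : Fin n → Fin 2) :
    Matrix (Fin n → Fin 2) (Fin n → Fin 2) ℂ :=
  Matrix.of fun a b => ∏ l, pureIn q (s l) (a l) (b l)

lemma signIn_isState {q : ℝ} (hq : q ∈ Set.Icc (0 : ℝ) 1) (s : Fin n → Fin 2) :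
    IsState (signIn q s) := by
  refine ⟨?_, ?_⟩
  · set u : Fin n → Fin 2 → ℂ := fun l =>
      ![((Real.sqrt (1 - q) : ℝ) : ℂ), ((sgn (s l) * Real.sqrt q : ℝ) : ℂ)] with hu
    have : signIn q s = Matrix.vecMulVec (fun a => ∏ l, u l (a l))
        (star fun a => ∏ l, u l (a l)) := by
      ext a b
      simp only [signIn, Matrix.of_apply, Matrix.vecMulVec_apply, Pi.star_apply, star_prod,
        ← Finset.prod_mul_distrib]
      refine Finset.prod_congr rfl fun l _ => ?_
      have h1 := Real.mul_self_sqrt (by linarith [hq.2] : 0 ≤ 1 - q)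
      have h2 := Real.mul_self_sqrt hq.1
      have h3 : Real.sqrt (q * (1 - q)) = Real.sqrt q * Real.sqrt (1 - q) := Real.sqrt_mul hq.1 _
      have h4 : sgn (s l) * sgn (s l) = 1 := by unfold sgn; split_ifs <;> norm_num
      simp only [hu, RCLike.star_def, pureIn]
      generalize a l = i
      generalize b l = j
      fin_cases i <;> fin_cases j <;>
        simp [Complex.conj_ofReal, h3, ← Complex.ofReal_mul] <;> norm_cast <;>
        first | linarith | ring1 | linear_combination -h1 | linear_combination -(sgn (s l) * sgn (s l)) * h2 - q * h4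
    rw [this]
    exact Matrix.posSemidef_vecMulVec_self_star _
  · simp only [Matrix.trace, Matrix.diag_apply, signIn, Matrix.of_apply]
    rw [← Fintype.prod_sum (fun l a => pureIn q (s l) a a)]
    simp [pureIn, Fin.sum_univ_two]

/-- The product sign ensemble attains n times the rate. -/
theorem rate_mem (hg : g ∈ Set.Icc (0 : ℝ) 1) (hv : v ∈ Set.Icc (0 : ℝ) 1) {q : ℝ}
    (hq : q ∈ Set.Icc (0 : ℝ) 1) : (n : ℝ) * rate g v q ∈ holevoValues g v n := by
  set e : Fin (2 ^ n) ≃ (Fin n → Fin 2) := finFunctionFinEquiv.symm with he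
  set p : ℝ := (1 / 2 : ℝ) ^ n with hp
  set t : ℝ := (1 - g) * q + g * v with ht
  refine ⟨2 ^ n, fun _ => p, fun a => signIn q (e a), fun _ => by positivity, ?_,
    fun a => signIn_isState hq _, ?_⟩
  · simp [hp, ← mul_pow]
  have hout : ∀ s : Fin n → Fin 2,
      eta (gadPow g v n (signIn q s)) = n * pureEnt g v q := by
    intro s
    rw [signIn, gadPow_prod, eta_prod _ (fun l => (gad_pureIn_psd hg hv hq (s l)).1)
      (fun l => gad_pureIn_trace g v q (s l))]
    have : ∀ l, eta (gad g v (pureIn q (s l))) = pureEnt g v q := by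
      intro l
      refine eta_two (gad_pureIn_psd hg hv hq (s l)) (gad_pureIn_trace g v q (s l))
        (Real.sqrt_nonneg _) ?_
      rw [gad_pureIn_det hg hq, Real.sq_sqrt]
      rw [radSq_eq]
      nlinarith [mul_nonneg (mul_nonneg (by linarith [hg.2] : (0:ℝ) ≤ 1 - g) hq.1)
        (by linarith [hq.2] : (0:ℝ) ≤ 1 - q), sq_nonneg (1 - 2 * ((1 - g) * q + g * v))]
    simp [this]
  have havg : (∑ a, ((p : ℝ) : ℂ) • gadPow g v n (signIn q (e a)))
      = Matrix.diagonal (fun x : Fin n → Fin 2 =>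
          ((∏ l, (![1 - t, t] : Fin 2 → ℝ) (x l) : ℝ) : ℂ)) := by
    rw [e.sum_comp (fun s => ((p : ℝ) : ℂ) • gadPow g v n (signIn q s))]
    ext i j
    simp only [signIn, gadPow_prod, Matrix.sum_apply, Matrix.smul_apply, Matrix.of_apply,
      smul_eq_mul, hp, Complex.ofReal_pow]
    have hc : ∀ s : Fin n → Fin 2, ((1 / 2 : ℝ) : ℂ) ^ n * ∏ l, gad g v (pureIn q (s l)) (i l) (j l)
        = ∏ l, ((1 / 2 : ℝ) : ℂ) * gad g v (pureIn q (s l)) (i l) (j l) := by
      intro s; rw [Finset.prod_mul_distrib, Finset.prod_const, Finset.card_fin]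
    simp only [hc]
    rw [← Fintype.prod_sum (fun l c => ((1 / 2 : ℝ) : ℂ) * gad g v (pureIn q c) (i l) (j l))]
    have hav : ∀ a b : Fin 2, ∑ c, ((1 / 2 : ℝ) : ℂ) * gad g v (pureIn q c) a b
        = if a = b then (((![1 - t, t] : Fin 2 → ℝ) a : ℝ) : ℂ) else 0 := by
      intro a b
      fin_cases a <;> fin_cases b <;>
        simp [Fin.sum_univ_two, gad, pureIn, sgn, ht] <;> ring
    simp only [hav, Matrix.diagonal_apply]
    by_cases h : i = j
    · subst h; simp
    · obtain ⟨l, hl⟩ := Function.ne_iff.1 h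
      rw [if_neg h]; exact Finset.prod_eq_zero (Finset.mem_univ l) (by simp [hl])
  have hH : ∀ a, (gadPow g v n (signIn q (e a))).IsHermitian := fun a =>
    (gadPow_isState hg hv (signIn_isState hq _)).1.1
  simp only [fun a => entropy_eq (hH a), hout]
  rw [havg, entropy_eq (Matrix.isHermitian_diagonal_of_self_adjoint _
    (funext fun x => Complex.conj_ofReal _)), eta_diagonal,
    prod_entropy (fun _ => ![1 - t, t]) (fun _ => by simp [Fin.sum_univ_two]), rate_eq]
  simp only [Fin.sum_univ_two, Matrix.cons_val_zero, Matrix.cons_val_one,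
    Finset.sum_const, Finset.card_univ, Fintype.card_fin, nsmul_eq_mul,
    binEntropy_eq_negMulLog_add_negMulLog_one_sub, hp, ← ht]
  push_cast
  have : (2 : ℝ) ^ n * (1 / 2 : ℝ) ^ n = 1 := by rw [← mul_pow]; norm_num
  linear_combination (n : ℝ) * (pureEnt g v q / Real.log 2) * this

/-- The Holevo capacity of every tensor power, given the site bound. -/
theorem chi_eq (hg : g ∈ Set.Icc (0 : ℝ) 1) (hv : v ∈ Set.Icc (0 : ℝ) 1)
    (hlow : SiteBound g v n) : chi g v n = n * capacityValue g v := by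
  obtain ⟨y, hy, hmax⟩ := (isCompact_Icc (a := (0 : ℝ)) (b := 1)).exists_isMaxOn
    (Set.nonempty_Icc.2 zero_le_one) (f := rate g v) (by unfold rate; fun_prop)
  have hval : capacityValue g v = rate g v y :=
    IsGreatest.csSup_eq ⟨⟨y, hy, rfl⟩, by rintro _ ⟨q, hq, rfl⟩; exact hmax hq⟩
  refine IsGreatest.csSup_eq ⟨?_, fun x hx => holevo_le hg hv hlow hx⟩
  rw [hval]; exact rate_mem hg hv hy

/-- The classical capacity, given the site bound. -/
theorem capacity_eq (hg : g ∈ Set.Icc (0 : ℝ) 1) (hv : v ∈ Set.Icc (0 : ℝ) 1)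
    (hlow : ∀ n, SiteBound g v n) : capacity g v = capacityValue g v := by
  refine IsGreatest.csSup_eq ⟨⟨1, le_rfl, by rw [chi_eq hg hv (hlow 1)]; simp⟩, ?_⟩
  rintro _ ⟨n, hn, rfl⟩
  rw [chi_eq hg hv (hlow n), mul_div_cancel_left₀]
  positivity

end Vale.Agent.P358

namespace Vale.Agent.P358

/-- The three statements of the final theorem, given the site bound. -/
theorem gad_capacity_of_siteBound {g v : ℝ} (hg : g ∈ Set.Icc (0 : ℝ) 1)
    (hv : v ∈ Set.Icc (0 : ℝ) 1) (hlow : ∀ n, SiteBound g v n) :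
    (∀ n, 1 ≤ n → chi g v n = n * chi g v 1) ∧ capacity g v = chi g v 1 ∧
      chi g v 1 = capacityValue g v := by
  have h1 : chi g v 1 = capacityValue g v := by simpa using chi_eq hg hv (hlow 1)
  refine ⟨fun n _ => ?_, ?_, h1⟩
  · rw [h1, chi_eq hg hv (hlow n)]
  · rw [h1, capacity_eq hg hv hlow]

end Vale.Agent.P358
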