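import Vale.Agent.P358.Defs
import Vale.Agent.P358.Scalar

/-!
The single-qubit splitting of the channel: after an output rotation the channel is given by
`!![A Aᴴ + E Eᴴ, A Gᴴ; G Aᴴ, G Gᴴ]` with the two small weights multiplying to `det` of the
pure-input output.
-/

open Matrix
open scoped ComplexOrder ComplexConjugate

namespace Vale.Agent.P358

/-- The value of the coefficient matrix `M` on the qubit operator `ρ`. -/
def pairing (M ρ : Matrix (Fin 2) (Fin 2) ℂ) : ℂ := ∑ a, ∑ b, M a b * ρ a b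

/-- The determinant of the output of a pure input with excitation `q`. -/
def detOut (γ ν q : ℝ) : ℝ :=
  ((1 - γ) * q + γ * ν) * (1 - ((1 - γ) * q + γ * ν)) - (1 - γ) * q * (1 - q)

set_option maxRecDepth 4000 in
theorem split_identities
 (γ ν q N K M v e t D g00 g11 Δ z l : ℝ) (hN : N = (1-ν)*q + ν*(1-q)) (hN0 : N ≠ 0)
 (hK : K = (1-ν)*q/N) (hM : M = ν*(1-q)/N) (hv : v = γ*ν) (he : e = γ*(1-ν))
 (ht : t = (1-γ)*q + γ*ν) (hD : D = t*(1-t) - (1-γ)*q*(1-q))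
 (h00 : g00 = M + v*(K-M)) (h11 : g11 = K - e*(K-M)) (hΔ : Δ = g00*g11 - (1-γ)*K*M)
 (hz : z = g00*(1-q) + g11*q) (hz0 : z ≠ 0) (hl : l = D/z^2) :
 K*(M*(1-2*v)^2*g11 + (1-γ)*K*g00 - 2*(1-γ)*K*M*(1-2*v)) = Δ*(K*(1-v) + M*v - l*g00) ∧
 M*((1-γ)*M*g11 + K*(1-2*e)^2*g00 - 2*(1-γ)*K*M*(1-2*e)) = Δ*(K*e + M*(1-e) - l*g11) ∧
 (1-2*v)*M*g11 - K*M*((1-2*v)*(1-2*e) + (1-γ)) + K*g00*(1-2*e) = Δ*(1-l) := by
  have e00 : g00 = ν*(1-t)/N := by
    rw [h00,hK,hM,hv,ht,eq_div_iff hN0]; field_simp; ring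
  have e11 : g11 = (1-ν)*t/N := by
    rw [h11,hK,hM,he,ht,eq_div_iff hN0]; field_simp; ring
  have eΔ : Δ = ν*(1-ν)*D/N^2 := by
    rw [hΔ,e00,e11,hD,hK,hM]; field_simp
  have ez : z = (ν*(1-t)*(1-q) + (1-ν)*t*q)/N := by
    rw [hz,e00,e11]; field_simp
  have hzn : ν*(1-t)*(1-q) + (1-ν)*t*q ≠ 0 := by
    intro h; rw [ez,h,zero_div] at hz0; exact hz0 rfl
  rw [hl, ez, eΔ, e00, e11, hK, hM, hv, he, hD]
  generalize hZn : ν*(1-t)*(1-q) + (1-ν)*t*q = Zn at hzn ⊢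
  refine ⟨?_,?_,?_⟩
  all_goals
    field_simp
    subst hZn hN ht
    ring

/-- A split of the channel adapted to the one-site marginal `ρ`. -/
def HasSplit (γ ν : ℝ) (ρ : Matrix (Fin 2) (Fin 2) ℂ) : Prop :=
  ∃ W A E G : Matrix (Fin 2) (Fin 2) ℂ, Wᴴ * W = 1 ∧
    (∀ a b, W * gad γ ν (Matrix.single a b 1) * Wᴴ
      = !![(A * Aᴴ + E * Eᴴ) a b, (A * Gᴴ) a b; (G * Aᴴ) a b, (G * Gᴴ) a b]) ∧
    detOut γ ν (ρ 1 1).re = (pairing (E * Eᴴ) ρ).re * (pairing (G * Gᴴ) ρ).re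

theorem gad_single (γ ν : ℝ) : (gad γ ν (Matrix.single 0 0 1) = !![((1 - γ * ν : ℝ) : ℂ), 0; 0, ((γ * ν : ℝ) : ℂ)]) ∧
    (gad γ ν (Matrix.single 0 1 1) = !![0, ((Real.sqrt (1 - γ) : ℝ) : ℂ); 0, 0]) ∧
    (gad γ ν (Matrix.single 1 0 1) = !![0, 0; ((Real.sqrt (1 - γ) : ℝ) : ℂ), 0]) ∧
    (gad γ ν (Matrix.single 1 1 1)
      = !![((γ * (1 - ν) : ℝ) : ℂ), 0; 0, ((1 - γ + γ * ν : ℝ) : ℂ)]) := by
  refine ⟨?_, ?_, ?_, ?_⟩ <;> ext i j <;> fin_cases i <;> fin_cases j <;>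
    simp [gad, Matrix.single]

theorem split_gamma_zero (ν : ℝ) {ρ : Matrix (Fin 2) (Fin 2) ℂ} :
    HasSplit 0 ν ρ := by
  obtain ⟨h0, h1, h2, h3⟩ := gad_single 0 ν
  refine ⟨1, !![1, 0; 0, 0], 0, !![0, 0; 1, 0], by simp, ?_, ?_⟩
  · intro a b
    fin_cases a <;> fin_cases b <;>
      simp only [Fin.zero_eta, Fin.mk_one, h0, h1, h2, h3] <;>
      ext i j <;> fin_cases i <;> fin_cases j <;> simp [Matrix.mul_apply, Matrix.vecMul, dotProduct, Fin.sum_univ_two]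
  · simp [detOut, pairing]

theorem split_gamma_one {ν : ℝ} (hν : ν ∈ Set.Icc (0 : ℝ) 1) {ρ : Matrix (Fin 2) (Fin 2) ℂ}
    (hρ : ρ.trace = 1) : HasSplit 1 ν ρ := by
  obtain ⟨h0, h1, h2, h3⟩ := gad_single 1 ν
  have e1 : ((Real.sqrt (1 - ν) : ℝ) : ℂ) * (Real.sqrt (1 - ν) : ℝ) = 1 - (ν : ℂ) := by
    rw [← Complex.ofReal_mul, Real.mul_self_sqrt (by linarith [hν.2])]; simp
  have e2 : ((Real.sqrt ν : ℝ) : ℂ) * (Real.sqrt ν : ℝ) = (ν : ℂ) := by
    rw [← Complex.ofReal_mul, Real.mul_self_sqrt hν.1]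
  refine ⟨1, 0, (Real.sqrt (1 - ν) : ℂ) • 1, (Real.sqrt ν : ℂ) • 1, by simp, ?_, ?_⟩
  · intro a b
    fin_cases a <;> fin_cases b <;>
      simp only [Fin.zero_eta, Fin.mk_one, h0, h1, h2, h3] <;>
      ext i j <;> fin_cases i <;> fin_cases j <;>
      simp [Matrix.one_apply, Complex.conj_ofReal, e1, e2, sub_self]
  · have ht : (ρ 0 0).re + (ρ 1 1).re = 1 := by
      have := congrArg Complex.re hρ
      simpa [Matrix.trace, Fin.sum_univ_two] using this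
    have p : ∀ s : ℝ, 0 ≤ s → (pairing ((Real.sqrt s : ℂ) • (1 : Matrix (Fin 2) (Fin 2) ℂ)
        * ((Real.sqrt s : ℂ) • (1 : Matrix (Fin 2) (Fin 2) ℂ))ᴴ) ρ).re = s := fun s hs => by
      simp [pairing, Fin.sum_univ_two, Matrix.one_apply, Complex.conj_ofReal, ← Complex.ofReal_mul,
        Real.mul_self_sqrt hs]
      linear_combination s * ht
    rw [p _ (by linarith [hν.2]), p _ hν.1, detOut]
    ring

theorem split_nu_zero {γ : ℝ} (hγ : γ ∈ Set.Icc (0 : ℝ) 1) {ρ : Matrix (Fin 2) (Fin 2) ℂ} :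
    HasSplit γ 0 ρ := by
  obtain ⟨h0, h1, h2, h3⟩ := gad_single γ 0
  have e1 : ((Real.sqrt γ : ℝ) : ℂ) * (Real.sqrt γ : ℝ) = (γ : ℂ) := by
    rw [← Complex.ofReal_mul, Real.mul_self_sqrt hγ.1]
  have e2 : ((Real.sqrt (1 - γ) : ℝ) : ℂ) * (Real.sqrt (1 - γ) : ℝ) = 1 - (γ : ℂ) := by
    rw [← Complex.ofReal_mul, Real.mul_self_sqrt (by linarith [hγ.2])]; simp
  refine ⟨1, !![1, 0; 0, 0], !![0, 0; (Real.sqrt γ : ℂ), 0],
    !![0, 0; (Real.sqrt (1 - γ) : ℂ), 0], by simp, ?_, ?_⟩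
  · intro a b
    fin_cases a <;> fin_cases b <;>
      simp only [Fin.zero_eta, Fin.mk_one, h0, h1, h2, h3] <;>
      ext i j <;> fin_cases i <;> fin_cases j <;>
      simp [Matrix.mul_apply, Matrix.vecMul, dotProduct, Fin.sum_univ_two, Complex.conj_ofReal, e1, e2]
  · simp [pairing, detOut, Fin.sum_univ_two, Matrix.vecMul, dotProduct, Matrix.mul_apply, Complex.conj_ofReal, e1, e2]
    ring

theorem split_nu_one {γ : ℝ} (hγ : γ ∈ Set.Icc (0 : ℝ) 1) {ρ : Matrix (Fin 2) (Fin 2) ℂ}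
    (hρ : ρ.trace = 1) : HasSplit γ 1 ρ := by
  obtain ⟨h0, h1, h2, h3⟩ := gad_single γ 1
  have e1 : ((Real.sqrt γ : ℝ) : ℂ) * (Real.sqrt γ : ℝ) = (γ : ℂ) := by
    rw [← Complex.ofReal_mul, Real.mul_self_sqrt hγ.1]
  have e2 : ((Real.sqrt (1 - γ) : ℝ) : ℂ) * (Real.sqrt (1 - γ) : ℝ) = 1 - (γ : ℂ) := by
    rw [← Complex.ofReal_mul, Real.mul_self_sqrt (by linarith [hγ.2])]; simp
  refine ⟨!![0, 1; 1, 0], !![0, 0; 1, 0], !![(Real.sqrt γ : ℂ), 0; 0, 0],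
    !![(Real.sqrt (1 - γ) : ℂ), 0; 0, 0], ?_, ?_, ?_⟩
  · ext i j; fin_cases i <;> fin_cases j <;> simp [Matrix.mul_apply, Matrix.vecMul, dotProduct, Fin.sum_univ_two]
  · intro a b
    fin_cases a <;> fin_cases b <;>
      simp only [Fin.zero_eta, Fin.mk_one, h0, h1, h2, h3] <;>
      ext i j <;> fin_cases i <;> fin_cases j <;>
      simp [Matrix.mul_apply, Matrix.vecMul, dotProduct, Fin.sum_univ_two, Complex.conj_ofReal, e1, e2]
  · have ht : (ρ 0 0).re = 1 - (ρ 1 1).re := by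
      have := congrArg Complex.re hρ
      simp [Matrix.trace, Fin.sum_univ_two] at this
      linarith
    simp [pairing, detOut, Fin.sum_univ_two, Matrix.vecMul, dotProduct, Matrix.mul_apply, Complex.conj_ofReal, e1, e2, ht]
    ring

theorem split_interior {γ ν : ℝ} (hγ : γ ∈ Set.Ioo (0 : ℝ) 1) (hν : ν ∈ Set.Ioo (0 : ℝ) 1)
    {ρ : Matrix (Fin 2) (Fin 2) ℂ} (hρ : ρ.PosSemidef) (htr : ρ.trace = 1) :
    HasSplit γ ν ρ := by
  obtain ⟨γ0, γ1⟩ := hγ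
  obtain ⟨ν0, ν1⟩ := hν
  -- the phase
  obtain ⟨u, huu, hu⟩ : ∃ u : ℂ, conj u * u = 1 ∧ (conj u * ρ 0 1).re = 0 := by
    by_cases h : ρ 0 1 = 0
    · exact ⟨1, by simp, by simp [h]⟩
    · have hn : (‖ρ 0 1‖ : ℂ) ≠ 0 := by simpa using h
      have hm : conj (ρ 0 1) * ρ 0 1 = (‖ρ 0 1‖ : ℂ) ^ 2 := Complex.conj_mul' _
      refine ⟨Complex.I * ρ 0 1 / (‖ρ 0 1‖ : ℂ), ?_, ?_⟩
      · rw [map_div₀, map_mul, Complex.conj_I, Complex.conj_ofReal, div_mul_div_comm,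
          div_eq_one_iff_eq (mul_ne_zero hn hn)]
        linear_combination (-Complex.I * Complex.I) * hm
          - (‖ρ 0 1‖ : ℂ) ^ 2 * Complex.I_mul_I
      · rw [map_div₀, map_mul, Complex.conj_I, Complex.conj_ofReal, div_mul_eq_mul_div,
          mul_assoc, hm, sq, neg_mul, neg_div, ← mul_assoc, mul_div_assoc, div_self hn, mul_one]
        simp
  set q := (ρ 1 1).re with hq
  have h00 : (ρ 0 0).re = 1 - q := by
    have := congrArg Complex.re htr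
    simp [Matrix.trace, Fin.sum_univ_two] at this
    linarith
  have q0 : 0 ≤ q := (Complex.le_def.1 (hρ.diag_nonneg (i := (1 : Fin 2)))).1
  have q1 : q ≤ 1 := by
    have : 0 ≤ (ρ 0 0).re := (Complex.le_def.1 (hρ.diag_nonneg (i := (0 : Fin 2)))).1
    linarith
  set c := Real.sqrt (1 - γ) with hc
  have hcc : c * c = 1 - γ := Real.mul_self_sqrt (by linarith)
  set N := (1 - ν) * q + ν * (1 - q) with hN
  have hN0 : 0 < N := by
    rcases lt_or_eq_of_le q0 with h | h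
    · exact add_pos_of_pos_of_nonneg (mul_pos (by linarith) h) (mul_nonneg ν0.le (by linarith))
    · rw [hN, ← h]; linarith
  set k := Real.sqrt ((1 - ν) * q / N) with hk
  set m := Real.sqrt (ν * (1 - q) / N) with hm
  have hkk : k * k = (1 - ν) * q / N :=
    Real.mul_self_sqrt (div_nonneg (mul_nonneg (by linarith) q0) hN0.le)
  have hmm : m * m = ν * (1 - q) / N :=
    Real.mul_self_sqrt (div_nonneg (mul_nonneg ν0.le (by linarith)) hN0.le)
  have hkm : k * k + m * m = 1 := by rw [hkk, hmm, ← add_div, ← hN, div_self hN0.ne']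
  set v := γ * ν with hv
  set e := γ * (1 - ν) with he
  set t := (1 - γ) * q + γ * ν with ht
  have t0 : 0 < t := add_pos_of_nonneg_of_pos (mul_nonneg (by linarith) q0) (mul_pos γ0 ν0)
  have t1 : t < 1 := by
    have h1 : 0 < γ * (1 - ν) := mul_pos γ0 (by linarith)
    have h2 : 0 ≤ (1 - γ) * (1 - q) := mul_nonneg (by linarith) (by linarith)
    linarith [show 1 - t = (1 - γ) * (1 - q) + γ * (1 - ν) by rw [ht]; ring]
  set D := t * (1 - t) - (1 - γ) * q * (1 - q) with hD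
  have hD' : detOut γ ν q = D := rfl
  have D0 : 0 < D := by
    have : D = γ * (1 - γ) * (q - ν) ^ 2 + γ * ν * (1 - ν) := by rw [hD, ht]; ring
    rw [this]
    exact add_pos_of_nonneg_of_pos
      (mul_nonneg (mul_nonneg γ0.le (by linarith)) (sq_nonneg _))
      (mul_pos (mul_pos γ0 ν0) (by linarith))
  set g00 := m * m + v * (k * k - m * m) with hg00
  set g11 := k * k - e * (k * k - m * m) with hg11
  have e00 : g00 = ν * (1 - t) / N := by
    rw [hg00, hkk, hmm, hv, ht, eq_div_iff hN0.ne']; field_simp; ring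
  have e11 : g11 = (1 - ν) * t / N := by
    rw [hg11, hkk, hmm, he, ht, eq_div_iff hN0.ne']; field_simp; ring
  have g0 : 0 < g00 := by rw [e00]; exact div_pos (mul_pos ν0 (by linarith)) hN0
  have g1 : 0 < g11 := by rw [e11]; exact div_pos (mul_pos (by linarith) t0) hN0
  set Δ := g00 * g11 - (1 - γ) * (k * k) * (m * m) with hΔ
  have eΔ : Δ = ν * (1 - ν) * D / N ^ 2 := by
    rw [hΔ, e00, e11, hD, hkk, hmm]; field_simp
  have Δ0 : 0 < Δ := by
    rw [eΔ]; exact div_pos (mul_pos (mul_pos ν0 (by linarith)) D0) (pow_pos hN0 2)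
  set z := g00 * (1 - q) + g11 * q with hz
  have z0 : 0 < z := by
    rcases lt_or_eq_of_le q0 with h | h
    · exact add_pos_of_nonneg_of_pos (mul_nonneg g0.le (by linarith)) (mul_pos g1 h)
    · rw [hz, ← h]; linarith
  set l := D / z ^ 2 with hl
  have l0 : 0 ≤ l := (div_pos D0 (pow_pos z0 2)).le
  obtain ⟨i0, i1, i2⟩ := split_identities γ ν q N (k * k) (m * m) v e t D g00 g11 Δ z l hN
    hN0.ne' hkk hmm hv he ht hD hg00 hg11 hΔ hz z0.ne' hl
  -- the real entries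
  set p1 := Real.sqrt g00 with hp1
  have p10 : 0 < p1 := Real.sqrt_pos.2 g0
  have p11 : p1 ^ 2 = g00 := Real.sq_sqrt g0.le
  set r := Real.sqrt (Δ / g00) with hr
  have r0 : 0 < r := Real.sqrt_pos.2 (div_pos Δ0 g0)
  have r2 : r ^ 2 = Δ / g00 := Real.sq_sqrt (div_pos Δ0 g0).le
  set p2 := -(c * k * m) / p1 with hp2
  set x1 := -(k * m * (1 - 2 * v)) / p1 with hx1
  set y1 := -(c * m * m) / p1 with hy1
  set x2 := c * k * k * (g00 - m * m * (1 - 2 * v)) / (g00 * r) with hx2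
  set y2 := k * m * ((1 - 2 * e) * g00 - c * c * (m * m)) / (g00 * r) with hy2
  set L := Real.sqrt l with hL
  have hLL : L * L = l := Real.mul_self_sqrt l0
  have r1' : p1 * p2 = -(c * k * m) := by rw [hp2, mul_div_cancel₀ _ p10.ne']
  have r2' : p2 ^ 2 + r ^ 2 = g11 := by
    rw [hp2, div_pow, p11, r2, hΔ, ← hcc]; field_simp; ring
  have f00 : x1 * p1 = -(k * m * (1 - 2 * v)) := by rw [hx1, div_mul_cancel₀ _ p10.ne']
  have f10 : y1 * p1 = -(c * m * m) := by rw [hy1, div_mul_cancel₀ _ p10.ne']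
  have f01 : x1 * p2 + x2 * r = c * (k * k) := by
    rw [hx1, hp2, hx2, div_mul_div_comm, ← sq p1, p11]; field_simp; ring
  have f11 : y1 * p2 + y2 * r = k * m * (1 - 2 * e) := by
    rw [hy1, hp2, hy2, div_mul_div_comm, ← sq p1, p11]; field_simp; ring
  have a00 : x1 ^ 2 + x2 ^ 2 + l * p1 ^ 2 = k * k * (1 - v) + m * m * v := by
    rw [hx1, hx2, div_pow, div_pow, p11, mul_pow g00 r, r2]
    rw [← hcc] at i0 hΔ
    field_simp
    rw [hΔ] at i0 ⊢
    linear_combination g00 * i0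
  have a11 : y1 ^ 2 + y2 ^ 2 + l * (p2 ^ 2 + r ^ 2) = k * k * e + m * m * (1 - e) := by
    rw [r2', hy1, hy2, div_pow, div_pow, p11, mul_pow g00 r, r2]
    rw [← hcc] at i1 hΔ
    field_simp
    rw [hΔ] at i1 ⊢
    linear_combination g00 * i1
  have a01 : x1 * y1 + x2 * y2 - l * (p1 * p2) = c * k * m := by
    rw [r1', hx1, hy1, hx2, hy2, div_mul_div_comm, div_mul_div_comm, ← sq p1, p11,
      show g00 * r * (g00 * r) = g00 ^ 2 * r ^ 2 by ring, r2]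
    rw [← hcc] at i2 hΔ
    field_simp
    rw [hΔ] at i2 ⊢
    linear_combination (c * k * m * g00) * i2
  let A : Matrix (Fin 2) (Fin 2) ℂ := !![(x1 : ℂ), (x2 : ℂ) * conj u; (y1 : ℂ) * u, (y2 : ℂ)]
  let E : Matrix (Fin 2) (Fin 2) ℂ := (L : ℂ) • !![(p1 : ℂ), 0; -((p2 : ℂ) * u), (r : ℂ)]
  let G : Matrix (Fin 2) (Fin 2) ℂ := !![(p1 : ℂ), 0; (p2 : ℂ) * u, (r : ℂ)]
  let W : Matrix (Fin 2) (Fin 2) ℂ := !![(k : ℂ), (m : ℂ) * u; -(m : ℂ), (k : ℂ) * u]
  have huu' : u * conj u = 1 := by rw [mul_comm, huu]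
  have hGG : G * Gᴴ = !![(g00 : ℂ), -((c * k * m : ℝ) : ℂ) * conj u;
      -((c * k * m : ℝ) : ℂ) * u, (g11 : ℂ)] := by
    have c1 : (p1 : ℂ) * p2 = -((c * k * m : ℝ) : ℂ) := by exact_mod_cast r1'
    have c2 : (p2 : ℂ) ^ 2 + (r : ℂ) ^ 2 = g11 := by exact_mod_cast r2'
    have c3 : (p1 : ℂ) ^ 2 = g00 := by exact_mod_cast p11
    ext i j; fin_cases i <;> fin_cases j <;>
      simp [G, Matrix.mul_apply, Matrix.vecMul, dotProduct, Fin.sum_univ_two, Complex.conj_ofReal] <;> push_cast at c1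
    · linear_combination c3
    · linear_combination conj u * c1
    · linear_combination u * c1
    · linear_combination c2 + (p2 : ℂ) ^ 2 * huu'
  have hAG : A * Gᴴ = !![-((k * m * (1 - 2 * v) : ℝ) : ℂ), ((c * (k * k) : ℝ) : ℂ) * conj u;
      -((c * m * m : ℝ) : ℂ) * u, ((k * m * (1 - 2 * e) : ℝ) : ℂ)] := by
    have c1 : (x1 : ℂ) * p1 = -((k * m * (1 - 2 * v) : ℝ) : ℂ) := by exact_mod_cast f00
    have c2 : (y1 : ℂ) * p1 = -((c * m * m : ℝ) : ℂ) := by exact_mod_cast f10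
    have c3 : (x1 : ℂ) * p2 + x2 * r = ((c * (k * k) : ℝ) : ℂ) := by exact_mod_cast f01
    have c4 : (y1 : ℂ) * p2 + y2 * r = ((k * m * (1 - 2 * e) : ℝ) : ℂ) := by exact_mod_cast f11
    ext i j; fin_cases i <;> fin_cases j <;>
      simp [A, G, Matrix.mul_apply, Matrix.vecMul, dotProduct, Fin.sum_univ_two, Complex.conj_ofReal] <;>
      push_cast at c1 c2 c3 c4
    · linear_combination c1
    · linear_combination conj u * c3
    · linear_combination u * c2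
    · linear_combination c4 + (y1 : ℂ) * (p2 : ℂ) * huu'
  have hAE : A * Aᴴ + E * Eᴴ = !![((k * k * (1 - v) + m * m * v : ℝ) : ℂ),
      ((c * k * m : ℝ) : ℂ) * conj u;
      ((c * k * m : ℝ) : ℂ) * u, ((k * k * e + m * m * (1 - e) : ℝ) : ℂ)] := by
    have c0 : (L : ℂ) * L = l := by exact_mod_cast hLL
    have c1 : (x1 : ℂ) ^ 2 + (x2 : ℂ) ^ 2 + l * (p1 : ℂ) ^ 2
        = ((k * k * (1 - v) + m * m * v : ℝ) : ℂ) := by exact_mod_cast a00
    have c2 : (y1 : ℂ) ^ 2 + (y2 : ℂ) ^ 2 + l * ((p2 : ℂ) ^ 2 + (r : ℂ) ^ 2)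
        = ((k * k * e + m * m * (1 - e) : ℝ) : ℂ) := by exact_mod_cast a11
    have c3 : (x1 : ℂ) * y1 + x2 * y2 - l * ((p1 : ℂ) * p2) = ((c * k * m : ℝ) : ℂ) := by
      exact_mod_cast a01
    ext i j; fin_cases i <;> fin_cases j <;>
      simp [A, E, Matrix.mul_apply, Matrix.vecMul, dotProduct, Fin.sum_univ_two, Complex.conj_ofReal] <;>
      push_cast at c1 c2 c3
    · linear_combination c1 + (x2 : ℂ) ^ 2 * huu + (p1 : ℂ) ^ 2 * c0
    · linear_combination conj u * c3 - (p1 : ℂ) * p2 * conj u * c0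
    · linear_combination u * c3 - (p1 : ℂ) * p2 * u * c0
    · linear_combination c2 + ((p2 : ℂ) ^ 2 + (r : ℂ) ^ 2) * c0
        + ((y1 : ℂ) ^ 2 + (L : ℂ) * L * (p2 : ℂ) ^ 2) * huu'
  have hGA : G * Aᴴ = (A * Gᴴ)ᴴ := by
    rw [Matrix.conjTranspose_mul, Matrix.conjTranspose_conjTranspose]
  have hW : ∀ X : Matrix (Fin 2) (Fin 2) ℂ, W * X * Wᴴ =
      !![(k : ℂ) * k * X 0 0 + (k : ℂ) * m * (conj u * X 0 1 + u * X 1 0) + (m : ℂ) * m * X 1 1,
        -((k : ℂ) * m) * X 0 0 + (k : ℂ) * k * (conj u * X 0 1) - (m : ℂ) * m * (u * X 1 0)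
          + (k : ℂ) * m * X 1 1;
        -((k : ℂ) * m) * X 0 0 - (m : ℂ) * m * (conj u * X 0 1) + (k : ℂ) * k * (u * X 1 0)
          + (k : ℂ) * m * X 1 1,
        (m : ℂ) * m * X 0 0 - (k : ℂ) * m * (conj u * X 0 1 + u * X 1 0) + (k : ℂ) * k * X 1 1] := by
    intro X
    ext i j; fin_cases i <;> fin_cases j <;>
      simp [W, Matrix.mul_apply, Matrix.vecMul, dotProduct, Fin.sum_univ_two, Complex.conj_ofReal]
    · linear_combination ((m : ℂ) * m * X 1 1) * huu'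
    · linear_combination ((k : ℂ) * m * X 1 1) * huu'
    · linear_combination ((k : ℂ) * m * X 1 1) * huu'
    · linear_combination ((k : ℂ) * k * X 1 1) * huu'
  have hWW : Wᴴ * W = 1 := by
    have c1 : (k : ℂ) * k + (m : ℂ) * m = 1 := by exact_mod_cast hkm
    ext i j; fin_cases i <;> fin_cases j <;>
      simp [W, Matrix.mul_apply, Matrix.vecMul, dotProduct, Fin.sum_univ_two, Complex.conj_ofReal]
    · linear_combination c1
    · ring
    · ring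
    · linear_combination c1 * (conj u * u) + huu
  refine ⟨W, A, E, G, hWW, ?_, ?_⟩
  · obtain ⟨h0, h1, h2, h3⟩ := gad_single γ ν
    intro a b
    rw [hGA, hAE, hAG, hGG, hW]
    fin_cases a <;> fin_cases b <;>
      simp only [Fin.zero_eta, Fin.mk_one, h0, h1, h2, h3] <;>
      ext i j <;> fin_cases i <;> fin_cases j <;>
      simp [hv, he, hg00, hg11, ← hc, Complex.conj_ofReal] <;>
      first | ring1 | (ring_nf; simp)
  · have hconj : ρ 1 0 = conj (ρ 0 1) := (hρ.isHermitian.apply 1 0).symm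
    have him : (conj u * ρ 0 1 + u * conj (ρ 0 1)).re = 0 := by
      have : u * conj (ρ 0 1) = conj (conj u * ρ 0 1) := by simp [mul_comm]
      rw [this, Complex.add_re, Complex.conj_re, hu, add_zero]
    have pG : (pairing (G * Gᴴ) ρ).re = z := by
      rw [hGG, pairing]
      simp only [Fin.sum_univ_two, Matrix.of_apply, Matrix.cons_val', Matrix.cons_val_zero,
        Matrix.cons_val_one, Matrix.empty_val', Matrix.cons_val_fin_one, hconj]
      rw [show (g00 : ℂ) * ρ 0 0 + -((c * k * m : ℝ) : ℂ) * conj u * ρ 0 1 +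
          (-((c * k * m : ℝ) : ℂ) * u * conj (ρ 0 1) + (g11 : ℂ) * ρ 1 1)
          = ((g00 : ℂ) * ρ 0 0 + (g11 : ℂ) * ρ 1 1)
            - ((c * k * m : ℝ) : ℂ) * (conj u * ρ 0 1 + u * conj (ρ 0 1)) by ring]
      rw [Complex.sub_re, Complex.add_re, Complex.re_ofReal_mul, Complex.re_ofReal_mul,
        Complex.re_ofReal_mul, him, h00, ← hq, hz]
      ring
    have hEE : E * Eᴴ = (l : ℂ) • !![(g00 : ℂ), ((c * k * m : ℝ) : ℂ) * conj u;
        ((c * k * m : ℝ) : ℂ) * u, (g11 : ℂ)] := by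
      have c0 : (L : ℂ) * L = l := by exact_mod_cast hLL
      have c1 : (p1 : ℂ) * p2 = -((c * k * m : ℝ) : ℂ) := by exact_mod_cast r1'
      have c2 : (p2 : ℂ) ^ 2 + (r : ℂ) ^ 2 = g11 := by exact_mod_cast r2'
      have c3 : (p1 : ℂ) ^ 2 = g00 := by exact_mod_cast p11
      ext i j; fin_cases i <;> fin_cases j <;>
        simp [E, Matrix.mul_apply, Matrix.vecMul, dotProduct, Fin.sum_univ_two, Complex.conj_ofReal] <;> push_cast at c1
      · linear_combination (p1 : ℂ) ^ 2 * c0 + (l : ℂ) * c3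
      · linear_combination (-(p1 : ℂ) * p2 * conj u) * c0 - (l : ℂ) * conj u * c1
      · linear_combination (-(p1 : ℂ) * p2 * u) * c0 - (l : ℂ) * u * c1
      · linear_combination ((p2 : ℂ) ^ 2 + (r : ℂ) ^ 2) * c0 + (l : ℂ) * c2
          + (L : ℂ) * L * (p2 : ℂ) ^ 2 * huu'
    have pE : (pairing (E * Eᴴ) ρ).re = l * z := by
      rw [hEE, pairing]
      simp only [Fin.sum_univ_two, Matrix.smul_apply, smul_eq_mul, Matrix.of_apply,
        Matrix.cons_val', Matrix.cons_val_zero, Matrix.cons_val_one, Matrix.empty_val',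
        Matrix.cons_val_fin_one, hconj]
      rw [show (l : ℂ) * (g00 : ℂ) * ρ 0 0 + (l : ℂ) * (((c * k * m : ℝ) : ℂ) * conj u) * ρ 0 1 +
          ((l : ℂ) * (((c * k * m : ℝ) : ℂ) * u) * conj (ρ 0 1) + (l : ℂ) * (g11 : ℂ) * ρ 1 1)
          = (l : ℂ) * (((g00 : ℂ) * ρ 0 0 + (g11 : ℂ) * ρ 1 1)
            + ((c * k * m : ℝ) : ℂ) * (conj u * ρ 0 1 + u * conj (ρ 0 1))) by ring]
      rw [Complex.re_ofReal_mul, Complex.add_re, Complex.add_re, Complex.re_ofReal_mul,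
        Complex.re_ofReal_mul, Complex.re_ofReal_mul, him, h00, ← hq, hz]
      ring
    rw [pG, pE, hD', hl]
    field_simp

/-- Every one-site marginal admits an adapted split. -/
theorem exists_split {γ ν : ℝ} (hγ : γ ∈ Set.Icc (0 : ℝ) 1) (hν : ν ∈ Set.Icc (0 : ℝ) 1)
    {ρ : Matrix (Fin 2) (Fin 2) ℂ} (hρ : ρ.PosSemidef) (htr : ρ.trace = 1) :
    HasSplit γ ν ρ := by
  rcases eq_or_lt_of_le hγ.1 with h | g0
  · exact h ▸ split_gamma_zero ν
  rcases eq_or_lt_of_le hγ.2 with h | g1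
  · exact h.symm ▸ split_gamma_one hν htr
  rcases eq_or_lt_of_le hν.1 with h | v0
  · exact h ▸ split_nu_zero hγ
  rcases eq_or_lt_of_le hν.2 with h | v1
  · exact h.symm ▸ split_nu_one hγ htr
  exact split_interior ⟨g0, g1⟩ ⟨v0, v1⟩ hρ htr

end Vale.Agent.P358
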