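import Vale.Agent.P358.ThreeBlock
import Vale.Agent.P358.Split
import Vale.Agent.P358.ChannelBasics

/-!
The output entropy of the tensor power is at least the sum of the one-site pure-input values.
-/

open Matrix
open scoped ComplexOrder Kronecker

set_option linter.unusedSectionVars false

namespace Vale.Agent.P358

variable {X ι : Type*} [Fintype X] [DecidableEq X] [Fintype ι]

/-- The combination of the qubit blocks of `σ` with the coefficients `M`. -/
def comb (M : Matrix (Fin 2) (Fin 2) ℂ) (σ : Matrix (Fin 2 × X) (Fin 2 × X) ℂ) : Matrix X X ℂ :=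
  Matrix.of fun x y => ∑ p, ∑ q, M p q * σ (p, x) (q, y)

/-- The lift of a coefficient matrix through a square root. -/
def lift (A : Matrix (Fin 2) (Fin 2) ℂ) (S : Matrix (Fin 2 × X) ι ℂ) : Matrix X (Fin 2 × ι) ℂ :=
  Matrix.of fun x k => ∑ p, A p k.1 * S (p, x) k.2

theorem lift_mul (A B : Matrix (Fin 2) (Fin 2) ℂ) (S : Matrix (Fin 2 × X) ι ℂ) :
    lift A S * (lift B S)ᴴ = comb (A * Bᴴ) (S * Sᴴ) := by
  ext x y
  simp only [lift, comb, Matrix.of_apply, Matrix.mul_apply, Matrix.conjTranspose_apply,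
    Fintype.sum_prod_type, Fin.sum_univ_two, star_add, star_mul', Finset.mul_sum]
  simp only [← Finset.sum_add_distrib]
  refine Finset.sum_congr rfl fun r _ => ?_
  ring

theorem comb_add (M N : Matrix (Fin 2) (Fin 2) ℂ) (σ : Matrix (Fin 2 × X) (Fin 2 × X) ℂ) :
    comb (M + N) σ = comb M σ + comb N σ := by
  ext x y
  simp [comb, add_mul, Finset.sum_add_distrib]

theorem comb_psd (A : Matrix (Fin 2) (Fin 2) ℂ) {σ : Matrix (Fin 2 × X) (Fin 2 × X) ℂ}
    (h : σ.PosSemidef) : (comb (A * Aᴴ) σ).PosSemidef := by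
  obtain ⟨S, rfl⟩ := exists_psd_sqrt h
  rw [← lift_mul]
  exact posSemidef_self_mul_conjTranspose _

/-- The first-qubit marginal. -/
def firstMarg (σ : Matrix (Fin 2 × X) (Fin 2 × X) ℂ) : Matrix (Fin 2) (Fin 2) ℂ :=
  ∑ x, σ.submatrix (fun a => (a, x)) (fun a => (a, x))

theorem trace_comb (M : Matrix (Fin 2) (Fin 2) ℂ) (σ : Matrix (Fin 2 × X) (Fin 2 × X) ℂ) :
    (comb M σ).trace = pairing M (firstMarg σ) := by
  simp only [comb, Matrix.trace, Matrix.diag_apply, Matrix.of_apply, pairing, firstMarg,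
    Matrix.sum_apply, Matrix.submatrix_apply, Finset.mul_sum]
  rw [Finset.sum_comm]
  exact Finset.sum_congr rfl fun p _ => Finset.sum_comm

variable {γ ν : ℝ} {n : ℕ}

/-- The equivalence splitting off the first site. -/
def siteEquiv (n : ℕ) : Fin 2 × (Fin n → Fin 2) ≃ (Fin (n + 1) → Fin 2) :=
  Fin.consEquiv fun _ => Fin 2

/-- The state in first-site / rest coordinates. -/
def siteMat (ρ : Matrix (Fin (n + 1) → Fin 2) (Fin (n + 1) → Fin 2) ℂ) :
    Matrix (Fin 2 × (Fin n → Fin 2)) (Fin 2 × (Fin n → Fin 2)) ℂ :=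
  ρ.submatrix (siteEquiv n) (siteEquiv n)

/-- The channel applied to the last `n` sites only. -/
noncomputable def restMap (γ ν : ℝ)
    (σ : Matrix (Fin 2 × (Fin n → Fin 2)) (Fin 2 × (Fin n → Fin 2)) ℂ) :
    Matrix (Fin 2 × (Fin n → Fin 2)) (Fin 2 × (Fin n → Fin 2)) ℂ :=
  Matrix.of fun i j =>
    gadPow γ ν n (σ.submatrix (fun x => (i.1, x)) (fun x => (j.1, x))) i.2 j.2

theorem gadPow_succ (ρ : Matrix (Fin (n + 1) → Fin 2) (Fin (n + 1) → Fin 2) ℂ)
    (i j : Fin 2 × (Fin n → Fin 2)) :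
    gadPow γ ν (n + 1) ρ (siteEquiv n i) (siteEquiv n j)
      = ∑ a, ∑ b, coef γ ν i.1 j.1 a b * restMap γ ν (siteMat ρ) (a, i.2) (b, j.2) := by
  simp only [gadPow_apply, restMap, siteMat, Matrix.of_apply, Matrix.submatrix_apply]
  rw [← (siteEquiv n).sum_comp, Fintype.sum_prod_type]
  refine Finset.sum_congr rfl fun a _ => ?_
  simp_rw [← (siteEquiv n).sum_comp, Fintype.sum_prod_type, Finset.mul_sum]
  rw [Finset.sum_comm]
  refine Finset.sum_congr rfl fun b _ => Finset.sum_congr rfl fun x _ =>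
    Finset.sum_congr rfl fun y _ => ?_
  simp only [Fin.prod_univ_succ, siteEquiv, Fin.consEquiv_apply, Fin.cons_zero, Fin.cons_succ]
  ring

theorem restMap_psd (hγ : γ ∈ Set.Icc (0 : ℝ) 1) (hν : ν ∈ Set.Icc (0 : ℝ) 1)
    {σ : Matrix (Fin 2 × (Fin n → Fin 2)) (Fin 2 × (Fin n → Fin 2)) ℂ} (h : σ.PosSemidef) :
    (restMap γ ν σ).PosSemidef := by
  have e : restMap γ ν σ = ∑ k : Fin n → Fin 4,
      ((1 : Matrix (Fin 2) (Fin 2) ℂ) ⊗ₖ krPow γ ν k) * σ
        * ((1 : Matrix (Fin 2) (Fin 2) ℂ) ⊗ₖ krPow γ ν k)ᴴ := by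
    ext ⟨a, x⟩ ⟨b, y⟩
    simp only [restMap, Matrix.of_apply, gadPow_kraus hγ hν, Matrix.sum_apply]
    refine Finset.sum_congr rfl fun k _ => ?_
    simp [Matrix.mul_apply, Matrix.one_apply, Fintype.sum_prod_type, Finset.sum_mul,
      apply_ite]
  rw [e]
  exact Matrix.posSemidef_sum _ fun k _ => h.mul_mul_conjTranspose_same _

theorem comb_restMap (M : Matrix (Fin 2) (Fin 2) ℂ)
    (σ : Matrix (Fin 2 × (Fin n → Fin 2)) (Fin 2 × (Fin n → Fin 2)) ℂ) :
    comb M (restMap γ ν σ) = gadPow γ ν n (comb M σ) := by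
  have e : comb M σ = ∑ k : Fin 2 × Fin 2,
      M k.1 k.2 • σ.submatrix (fun x => (k.1, x)) (fun x => (k.2, x)) := by
    ext x y
    simp [comb, Matrix.sum_apply, Fintype.sum_prod_type]
  rw [e, gadPow_sum]
  ext x y
  simp [comb, restMap, Matrix.sum_apply, Fintype.sum_prod_type]

theorem excited_smul (c : ℝ) (τ : Matrix (Fin n → Fin 2) (Fin n → Fin 2) ℂ) (l : Fin n) :
    excited ((c : ℂ) • τ) l = c * excited τ l := by
  simp [excited, Finset.mul_sum]

theorem gadPow_smul (c : ℂ) (τ : Matrix (Fin n → Fin 2) (Fin n → Fin 2) ℂ) :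
    gadPow γ ν n (c • τ) = c • gadPow γ ν n τ := by
  simpa using gadPow_sum γ ν (Finset.univ : Finset Unit) (fun _ => c) (fun _ => τ)

theorem pos_of_trace {ι : Type*} [Fintype ι] [DecidableEq ι] {τ : Matrix ι ι ℂ}
    (h : τ.PosSemidef) : 0 ≤ τ.trace.re ∧ ((τ.trace.re : ℂ) = τ.trace) :=
  have h0 := Complex.le_def.1 h.trace_nonneg
  ⟨h0.1, Complex.ext rfl (by simpa using h0.2)⟩

/-- The induction hypothesis for unnormalised inputs. -/
theorem scaled_bound (hlow : ∀ ρ : Matrix (Fin n → Fin 2) (Fin n → Fin 2) ℂ, IsState ρ →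
      ∑ l, pureEnt γ ν (excited ρ l) ≤ eta (gadPow γ ν n ρ))
    (hγ : γ ∈ Set.Icc (0 : ℝ) 1) (hν : ν ∈ Set.Icc (0 : ℝ) 1)
    {τ : Matrix (Fin n → Fin 2) (Fin n → Fin 2) ℂ} (hτ : τ.PosSemidef) :
    Real.negMulLog τ.trace.re
        + ∑ l, τ.trace.re * pureEnt γ ν (excited τ l / τ.trace.re)
      ≤ eta (gadPow γ ν n τ) := by
  obtain ⟨h0, hT⟩ := pos_of_trace hτ
  rcases h0.eq_or_lt with h | h
  · have hz : τ = 0 := hτ.trace_eq_zero_iff.1 (by rw [← hT, ← h]; simp)
    have : gadPow γ ν n (0 : Matrix (Fin n → Fin 2) (Fin n → Fin 2) ℂ) = 0 := by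
      simpa using gadPow_smul (γ := γ) (ν := ν) 0 (0 : Matrix (Fin n → Fin 2) (Fin n → Fin 2) ℂ)
    simp [hz, this, eta_zero]
  · set T := τ.trace.re with hTdef
    have hT0 : (T : ℂ) ≠ 0 := by exact_mod_cast h.ne'
    have hst : IsState (((T⁻¹ : ℝ) : ℂ) • τ) :=
      ⟨hτ.smul (by exact_mod_cast (inv_nonneg.2 h.le)),
        by rw [Matrix.trace_smul, ← hT, smul_eq_mul, Complex.ofReal_inv, inv_mul_cancel₀ hT0]⟩
    have hb := hlow _ hst
    have hout := gadPow_isState hγ hν hst
    have hs : gadPow γ ν n τ = (T : ℂ) • gadPow γ ν n (((T⁻¹ : ℝ) : ℂ) • τ) := by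
      rw [← gadPow_smul, smul_smul, Complex.ofReal_inv, mul_inv_cancel₀ hT0, one_smul]
    rw [hs, eta_smul hout.1.isHermitian, hout.2]
    simp only [excited_smul] at hb
    simp only [div_eq_inv_mul, ← Finset.mul_sum]
    have := mul_le_mul_of_nonneg_left hb h.le
    rw [Complex.one_re]
    linarith

theorem pairing_add (M N ρ : Matrix (Fin 2) (Fin 2) ℂ) :
    pairing (M + N) ρ = pairing M ρ + pairing N ρ := by
  simp [pairing, add_mul, Finset.sum_add_distrib]

theorem pureEnt_eq_roots (γ ν q : ℝ) {x y z : ℝ} (hs : x + y + z = 1)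
    (hd : detOut γ ν q = y * z) :
    pureEnt γ ν q = Real.negMulLog (rootP x y z) + Real.negMulLog (rootM x y z) := by
  have hr : radSq γ ν q = (x + y + z) ^ 2 - 4 * (y * z) := by
    rw [hs, ← hd, detOut, radSq_eq]; ring
  rw [pureEnt, hr, Real.binEntropy_eq_negMulLog_add_negMulLog_one_sub, rootP, rootM, hs]
  congr 2
  ring

/-- The two halves of `Fin 2 × X`. -/
def halves (X : Type*) : Fin 2 × X ≃ X ⊕ X where
  toFun p := ![Sum.inl p.2, Sum.inr p.2] p.1
  invFun := Sum.elim (fun x => (0, x)) fun x => (1, x)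
  left_inv := fun ⟨a, x⟩ => by fin_cases a <;> rfl
  right_inv := fun s => by cases s <;> rfl

/-- **The output-entropy lower bound.** -/
theorem eta_gadPow_ge (hγ : γ ∈ Set.Icc (0 : ℝ) 1) (hν : ν ∈ Set.Icc (0 : ℝ) 1) :
    ∀ {n : ℕ} {ρ : Matrix (Fin n → Fin 2) (Fin n → Fin 2) ℂ}, IsState ρ →
      ∑ l, pureEnt γ ν (excited ρ l) ≤ eta (gadPow γ ν n ρ) := by
  intro n
  induction n with
  | zero =>
    intro ρ hρ
    have h := gadPow_isState (n := 0) hγ hν hρ
    have e := (trace_re_eq h.1.isHermitian).symm.trans (congrArg Complex.re h.2)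
    rw [Complex.one_re, Fintype.sum_unique] at e
    rw [eta_eq h.1.isHermitian, Fin.sum_univ_zero]
    refine Finset.sum_nonneg fun i _ => ?_
    exact ((congrArg Real.negMulLog ((congrArg _ (Subsingleton.elim i _)).trans e)).trans
      Real.negMulLog_one).ge
  | succ n ih =>
    intro ρ hρ
    set σ := siteMat ρ with hσ
    have pσ : σ.PosSemidef := hρ.1.submatrix _
    set ρ1 := firstMarg σ with hρ1
    have p1 : ρ1.PosSemidef := Matrix.posSemidef_sum _ fun x _ => pσ.submatrix _
    have t1 : ρ1.trace = 1 := by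
      rw [← hρ.2]
      simp only [hρ1, firstMarg, hσ, siteMat, Matrix.trace, Matrix.diag_apply, Matrix.sum_apply,
        Matrix.submatrix_apply]
      conv_rhs => rw [← (siteEquiv n).sum_comp, Fintype.sum_prod_type]
    obtain ⟨W, A, E, G, hW, hsplit, hdet⟩ := exists_split hγ hν p1 t1
    -- completeness of the coefficients
    have hone : A * Aᴴ + E * Eᴴ + G * Gᴴ = 1 := by
      ext a b
      have h := congrArg Matrix.trace (hsplit a b)
      rw [Matrix.trace_mul_comm, ← Matrix.mul_assoc, hW, Matrix.one_mul] at h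
      have h2 : (gad γ ν (Matrix.single a b 1)).trace = if a = b then 1 else 0 := by
        rw [← coef_trace γ ν a b]; rfl
      rw [h2, Matrix.trace_fin_two] at h
      simp [Matrix.one_apply] at h ⊢
      linear_combination -h
    -- the rotated output is a block matrix
    set R := restMap γ ν σ with hR
    have pR : R.PosSemidef := restMap_psd hγ hν pσ
    obtain ⟨S, hS⟩ := exists_psd_sqrt pR
    set O := (gadPow γ ν (n + 1) ρ).submatrix (siteEquiv n) (siteEquiv n) with hO
    set U := W ⊗ₖ (1 : Matrix (Fin n → Fin 2) (Fin n → Fin 2) ℂ) with hU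
    have hUU : Uᴴ * U = 1 := by
      rw [hU, Matrix.conjTranspose_kronecker, ← Matrix.mul_kronecker_mul, hW,
        Matrix.conjTranspose_one, Matrix.one_mul, Matrix.one_kronecker_one]
    have hblock : U * O * Uᴴ = (blockMat (lift A S) (lift E S) (lift G S)).submatrix
        (halves _) (halves _) := by
      have hb : blockMat (lift A S) (lift E S) (lift G S) = Matrix.fromBlocks
          (comb (A * Aᴴ + E * Eᴴ) R) (comb (A * Gᴴ) R) (comb (G * Aᴴ) R) (comb (G * Gᴴ) R) := by
        rw [blockMat, lift_mul, lift_mul, lift_mul, lift_mul, lift_mul, ← hS, comb_add]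
      ext ⟨i, x⟩ ⟨j, y⟩
      have l : (U * O * Uᴴ) (i, x) (j, y) = ∑ a, ∑ b, W i a * O (a, x) (b, y) * star (W j b) := by
        simp [hU, Matrix.mul_apply, Matrix.one_apply, Fintype.sum_prod_type, apply_ite]
        ring
      have r : ∀ a b, (W * gad γ ν (Matrix.single a b 1) * Wᴴ) i j
          = ∑ c, ∑ d, W i c * coef γ ν c d a b * star (W j d) := fun a b => by
        simp only [coef, Matrix.mul_apply, Matrix.conjTranspose_apply, Fin.sum_univ_two]
        ring
      rw [l, hb]
      simp only [hO, Matrix.submatrix_apply, gadPow_succ, ← hσ, ← hR]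
      have r' : ∑ a, ∑ b, (W * gad γ ν (Matrix.single a b 1) * Wᴴ) i j * R (a, x) (b, y)
          = Matrix.fromBlocks
          (comb (A * Aᴴ + E * Eᴴ) R) (comb (A * Gᴴ) R) (comb (G * Aᴴ) R) (comb (G * Gᴴ) R)
            (halves _ (i, x)) (halves _ (j, y)) := by
        simp only [hsplit]
        fin_cases i <;> fin_cases j <;> simp [halves, comb]
      rw [← r']
      simp only [r, Fin.sum_univ_two]
      ring
    have heta : eta (gadPow γ ν (n + 1) ρ) = eta (blockMat (lift A S) (lift E S) (lift G S)) := by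
      rw [← eta_reindex (siteEquiv n).symm, ← eta_reindex (halves _).symm
        (blockMat (lift A S) (lift E S) (lift G S))]
      simp only [Matrix.reindex_apply, Equiv.symm_symm]
      rw [← hblock, eta_unitary_conj hUU]
    -- the three blocks
    have hK : ∀ B : Matrix (Fin 2) (Fin 2) ℂ, lift B S * (lift B S)ᴴ
        = gadPow γ ν n (comb (B * Bᴴ) σ) := fun B => by
      rw [lift_mul, ← hS, hR, comb_restMap]
    have hKt : ∀ B : Matrix (Fin 2) (Fin 2) ℂ, (lift B S * (lift B S)ᴴ).trace.re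
        = (pairing (B * Bᴴ) ρ1).re := fun B => by
      rw [hK, gadPow_trace, trace_comb]
    set B : Fin 3 → Matrix (Fin 2) (Fin 2) ℂ := ![A, E, G] with hB
    set τ : Fin 3 → Matrix (Fin n → Fin 2) (Fin n → Fin 2) ℂ :=
      fun k => comb (B k * (B k)ᴴ) σ with hτ
    set T : Fin 3 → ℝ := fun k => (pairing (B k * (B k)ᴴ) ρ1).re with hT
    have pτ : ∀ k, (τ k).PosSemidef := fun k => comb_psd _ pσ
    have hTτ : ∀ k, (τ k).trace.re = T k := fun k => by rw [hτ, hT, trace_comb]
    have hT0 : ∀ k, 0 ≤ T k := fun k => hTτ k ▸ (pos_of_trace (pτ k)).1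
    have hTs : T 0 + T 1 + T 2 = 1 := by
      simp only [hT, hB]
      simp [← Complex.add_re, ← pairing_add, hone]
      have := congrArg Complex.re t1
      simpa [pairing, Matrix.trace, Matrix.one_apply] using this
    have hconv : ∀ l : Fin n, pureEnt γ ν (excited ρ l.succ)
        ≤ ∑ k, T k * pureEnt γ ν (excited (τ k) l / T k) := by
      intro l
      have hz : ∀ k, T k = 0 → τ k = 0 := fun k hk => by
        refine (pτ k).trace_eq_zero_iff.1 ?_
        rw [← (pos_of_trace (pτ k)).2, hTτ, hk, Complex.ofReal_zero]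
      have hmem : ∀ k ∈ (Finset.univ : Finset (Fin 3)),
          excited (τ k) l / T k ∈ Set.Icc (0 : ℝ) 1 := fun k _ => by
        have hd : ∀ i, 0 ≤ (τ k i i).re := fun i => (Complex.le_def.1 ((pτ k).diag_nonneg (i := i))).1
        have h1 : excited (τ k) l ≤ T k := by
          rw [← hTτ, Matrix.trace, Complex.re_sum]
          exact Finset.sum_le_sum_of_subset_of_nonneg (Finset.filter_subset _ _) fun i _ _ => hd i
        exact ⟨div_nonneg (Finset.sum_nonneg fun i _ => hd i) (hT0 k), div_le_one_of_le₀ h1 (hT0 k)⟩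
      have h := (pureEnt_convexOn hγ hν).map_sum_le (t := Finset.univ) (w := T)
        (fun k _ => hT0 k) (by rw [Fin.sum_univ_three]; exact hTs) hmem
      simp only [smul_eq_mul] at h
      refine le_trans (le_of_eq (congrArg _ ?_)) h
      have e : ∀ k, T k * (excited (τ k) l / T k) = excited (τ k) l := fun k => by
        by_cases hk : T k = 0
        · simp [hk, hz k hk, excited]
        · rw [mul_div_cancel₀ _ hk]
      simp only [e]
      have hτs : τ 0 + τ 1 + τ 2 = comb 1 σ := by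
        rw [← hone, comb_add, comb_add]; rfl
      rw [Fin.sum_univ_three]
      have e2 : excited (τ 0) l + excited (τ 1) l + excited (τ 2) l
          = excited (comb 1 σ) l := by
        rw [← hτs]
        simp [excited, Finset.sum_add_distrib]
      rw [e2]
      simp only [excited, hσ, siteMat, comb, Finset.sum_filter]
      rw [← (siteEquiv n).sum_comp, Fintype.sum_prod_type, Finset.sum_comm]
      refine Finset.sum_congr rfl fun x _ => ?_
      simp [siteEquiv, Matrix.one_apply, Fin.sum_univ_two]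
    have hb : ∀ k, Real.negMulLog (T k) + ∑ l, T k * pureEnt γ ν (excited (τ k) l / T k)
        ≤ eta (lift (B k) S * (lift (B k) S)ᴴ) := fun k => by
      rw [hK, ← hTτ k]
      exact scaled_bound (fun ρ => ih) hγ hν (pτ k)
    have h3 := three_block (lift A S) (lift E S) (lift G S)
    rw [hKt, hKt, hKt] at h3
    have b0 := hb 0
    have b1 := hb 1
    have b2 := hb 2
    have hq : excited ρ 0 = (ρ1 1 1).re := by
      simp only [hρ1, firstMarg, hσ, siteMat, excited, Finset.sum_filter, Matrix.sum_apply,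
        Matrix.submatrix_apply, Complex.re_sum]
      rw [← (siteEquiv n).sum_comp, Fintype.sum_prod_type, Fin.sum_univ_two]
      simp [siteEquiv]
    have hsite : pureEnt γ ν (excited ρ 0)
        = Real.negMulLog (rootP (T 0) (T 1) (T 2)) + Real.negMulLog (rootM (T 0) (T 1) (T 2)) :=
      pureEnt_eq_roots γ ν _ hTs (by rw [hq, hdet]; rfl)
    rw [heta, Fin.sum_univ_succ, hsite]
    have hcs := Finset.sum_le_sum fun l (_ : l ∈ Finset.univ) => hconv l
    simp only [Fin.sum_univ_three, Finset.sum_add_distrib] at hcs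
    simp only [hT, hB, psi, Matrix.cons_val_zero, Matrix.cons_val_one, Matrix.cons_val_two,
      Matrix.head_cons, Matrix.tail_cons] at h3 b0 b1 b2 hcs ⊢
    linarith

end Vale.Agent.P358
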