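import Mathlib

/-!
Simultaneous diagonalisation and the midpoint convexity of
`(E, H) ↦ log det (H + aᴴ E⁻¹ a) - log det H`.
-/

open Matrix

set_option linter.unusedSectionVars false
open scoped ComplexOrder

namespace Vale.Agent.P358

variable {α β : Type*} [Fintype α] [DecidableEq α] [Fintype β] [DecidableEq β]

/-- The real diagonal matrix. -/
def rdiag (d : α → ℝ) : Matrix α α ℂ := Matrix.diagonal fun i => (d i : ℂ)

theorem rdiag_mul (d e : α → ℝ) : rdiag d * rdiag e = rdiag (fun i => d i * e i) := by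
  simp [rdiag]

theorem rdiag_conjTranspose (d : α → ℝ) : (rdiag d)ᴴ = rdiag d := by
  ext i j
  by_cases h : i = j
  · subst h; simp [rdiag]
  · simp [rdiag, h, Ne.symm h]

theorem rdiag_one : rdiag (fun _ : α => (1 : ℝ)) = 1 := by
  simp [rdiag]

theorem rdiag_psd {d : α → ℝ} (h : ∀ i, 0 ≤ d i) : (rdiag d).PosSemidef :=
  PosSemidef.diagonal fun i => by simpa using h i

theorem rdiag_pd {d : α → ℝ} (h : ∀ i, 0 < d i) : (rdiag d).PosDef := by
  rw [rdiag, posDef_diagonal_iff]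
  exact fun i => by exact_mod_cast h i

theorem det_rdiag (d : α → ℝ) : (rdiag d).det = ((∏ i, d i : ℝ) : ℂ) := by
  simp [rdiag, Matrix.det_diagonal]

theorem conj_pd {K : Matrix α α ℂ} (hK : IsUnit K.det) {M : Matrix α α ℂ} (hM : M.PosDef) :
    (K * M * Kᴴ).PosDef :=
  hM.mul_mul_conjTranspose_same (Matrix.vecMul_injective_of_isUnit
    ((Matrix.isUnit_iff_isUnit_det K).2 hK))

theorem exists_psd_sqrt {A : Matrix α α ℂ} (hA : A.PosSemidef) :
    ∃ S : Matrix α α ℂ, A = S * Sᴴ := by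
  refine ⟨(hA.isHermitian.eigenvectorUnitary : Matrix α α ℂ)
    * rdiag (fun i => Real.sqrt (hA.isHermitian.eigenvalues i)), ?_⟩
  conv_lhs => rw [hA.isHermitian.spectral_theorem, Unitary.conjStarAlgAut_apply]
  rw [Matrix.conjTranspose_mul, rdiag_conjTranspose, ← Matrix.mul_assoc,
    Matrix.mul_assoc (hA.isHermitian.eigenvectorUnitary : Matrix α α ℂ) (rdiag _) (rdiag _),
    rdiag_mul, Matrix.star_eq_conjTranspose]
  simp [rdiag, Function.comp_def, Real.mul_self_sqrt (hA.eigenvalues_nonneg _)]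

/-- Simultaneous diagonalisation of a positive definite and a positive semidefinite matrix. -/
theorem simdiag {A B : Matrix α α ℂ} (hA : A.PosDef) (hB : B.PosSemidef) :
    ∃ (K : Matrix α α ℂ) (d : α → ℝ), IsUnit K.det ∧ (∀ i, 0 ≤ d i) ∧
      A = K * Kᴴ ∧ B = K * rdiag d * Kᴴ := by
  obtain ⟨S, hS⟩ := exists_psd_sqrt hA.posSemidef
  have hSu : IsUnit S.det := by
    have h := (Matrix.isUnit_iff_isUnit_det A).1 hA.isUnit
    rw [hS, Matrix.det_mul] at h
    exact (IsUnit.mul_iff.1 h).1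
  have hC : (S⁻¹ * B * S⁻¹ᴴ).PosSemidef := hB.mul_mul_conjTranspose_same _
  refine ⟨S * (hC.isHermitian.eigenvectorUnitary : Matrix α α ℂ), hC.isHermitian.eigenvalues,
    ?_, hC.eigenvalues_nonneg, ?_, ?_⟩
  · rw [Matrix.det_mul]
    refine hSu.mul ((Matrix.isUnit_iff_isUnit_det _).1 ?_)
    exact (Unitary.toUnits hC.isHermitian.eigenvectorUnitary).isUnit
  · rw [Matrix.conjTranspose_mul, ← Matrix.mul_assoc, Matrix.mul_assoc S, ← Matrix.star_eq_conjTranspose
      (hC.isHermitian.eigenvectorUnitary : Matrix α α ℂ),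
      Unitary.mul_star_self_of_mem hC.isHermitian.eigenvectorUnitary.2,
      Matrix.mul_one, hS]
  · have h := hC.isHermitian.spectral_theorem
    rw [Unitary.conjStarAlgAut_apply] at h
    have e : rdiag hC.isHermitian.eigenvalues
        = diagonal (RCLike.ofReal ∘ hC.isHermitian.eigenvalues) := by
      simp [rdiag, Function.comp_def]
    rw [Matrix.conjTranspose_mul, e, ← Matrix.star_eq_conjTranspose
      (hC.isHermitian.eigenvectorUnitary : Matrix α α ℂ)]
    calc B = S * (S⁻¹ * B * S⁻¹ᴴ) * Sᴴ := by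
          rw [Matrix.conjTranspose_nonsing_inv]
          have h1 := Matrix.mul_nonsing_inv S hSu
          have h2 := Matrix.nonsing_inv_mul Sᴴ (by rw [Matrix.det_conjTranspose]; exact hSu.star)
          calc B = (S * S⁻¹) * B * ((Sᴴ)⁻¹ * Sᴴ) := by rw [h1, h2, Matrix.one_mul, Matrix.mul_one]
            _ = _ := by simp only [Matrix.mul_assoc]
      _ = _ := (congrArg (fun M => S * M * Sᴴ) h).trans (by simp only [Matrix.mul_assoc])

theorem det_re_pos {A : Matrix α α ℂ} (hA : A.PosDef) : 0 < A.det.re ∧ A.det.im = 0 := by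
  have h := hA.det_pos
  rw [Complex.lt_def] at h
  exact ⟨by simpa using h.1, by simpa using h.2.symm⟩

/-- Monotonicity of the determinant. -/
theorem det_mono {A B : Matrix α α ℂ} (hA : A.PosSemidef) (hB : B.PosSemidef) :
    B.det.re ≤ (A + B).det.re := by
  by_cases hd : B.det = 0
  · rw [hd]
    have h := (hA.add hB).det_nonneg
    rw [Complex.le_def] at h
    simpa using h.1
  · have hB' : B.PosDef := by
      obtain ⟨S, hS⟩ := exists_psd_sqrt hB
      rw [hS]
      refine PosDef.mul_conjTranspose_self _ (Matrix.vecMul_injective_of_isUnit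
        ((Matrix.isUnit_iff_isUnit_det _).2 (isUnit_iff_ne_zero.2 fun h => hd ?_)))
      rw [hS, Matrix.det_mul, h, zero_mul]
    obtain ⟨K, d, hK, hd0, hBK, hAK⟩ := simdiag hB' hA
    have e : A + B = K * rdiag (fun i => d i + 1) * Kᴴ := by
      rw [hAK, hBK]
      have : rdiag (fun i => d i + 1) = rdiag d + 1 := by
        rw [← rdiag_one, rdiag, rdiag, rdiag, Matrix.diagonal_add]
        congr 1; funext i; simp
      rw [this, Matrix.mul_add, Matrix.add_mul, Matrix.mul_one]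
    have h2 : (A + B).det = ((∏ i, (d i + 1) : ℝ) : ℂ) * B.det := by
      rw [e, hBK, Matrix.det_mul, Matrix.det_mul, Matrix.det_mul, det_rdiag]
      ring
    rw [h2, Complex.re_ofReal_mul]
    exact le_mul_of_one_le_left (det_re_pos hB').1.le
      (Finset.one_le_prod fun i _ => by linarith [hd0 i])

/-- The determinant inequality for positive semidefinite block matrices. -/
theorem det_block {P Q R : Matrix α α ℂ} (hP : P.PosDef) (hQ : Q.IsHermitian)
    (h : (Matrix.fromBlocks P Q Q R).PosSemidef) :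
    Q.det.re ^ 2 ≤ P.det.re * R.det.re := by
  let _ := hP.isUnit.invertible
  have h' : (Matrix.fromBlocks P Q Qᴴ R).PosSemidef := by rwa [hQ.eq]
  have hS := (Matrix.PosDef.fromBlocks₁₁ (A := P) Q R hP).1 h'
  have hQP : (Qᴴ * P⁻¹ * Q).PosSemidef := hP.inv.posSemidef.conjTranspose_mul_mul_same Q
  have h1 := det_mono hS hQP
  rw [sub_add_cancel, Matrix.det_mul, Matrix.det_mul, Matrix.det_conjTranspose,
    Matrix.det_nonsing_inv, Ring.inverse_eq_inv'] at h1
  obtain ⟨hp, hpi⟩ := det_re_pos hP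
  have hPd : P.det = (P.det.re : ℂ) := Complex.ext rfl (by simpa using hpi)
  have hQd : Q.det = (Q.det.re : ℂ) := by
    have h0 : star Q.det = Q.det := by rw [← Matrix.det_conjTranspose, hQ.eq]
    exact (Complex.conj_eq_iff_re.1 h0).symm
  rw [hPd, hQd] at h1
  simp only [Complex.star_def, Complex.conj_ofReal, ← Complex.ofReal_inv, ← Complex.ofReal_mul,
    Complex.ofReal_re] at h1
  calc Q.det.re ^ 2 = P.det.re * (Q.det.re * P.det.re⁻¹ * Q.det.re) := by field_simp
    _ ≤ _ := mul_le_mul_of_nonneg_left h1 hp.le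

/-- `log det (H + aᴴ E⁻¹ a) - log det H`. -/
noncomputable def gfun (a : Matrix α β ℂ) (E : Matrix α α ℂ) (H : Matrix β β ℂ) : ℝ :=
  Real.log (H + aᴴ * E⁻¹ * a).det.re - Real.log H.det.re

theorem inv_conj_rdiag {K : Matrix α α ℂ} (hK : IsUnit K.det) {d : α → ℝ} (hd : ∀ i, 0 < d i) :
    (K * rdiag d * Kᴴ)⁻¹ = K⁻¹ᴴ * rdiag (fun i => (d i)⁻¹) * K⁻¹ := by
  refine Matrix.inv_eq_right_inv ?_
  have h2 : Kᴴ * K⁻¹ᴴ = 1 := by
    rw [← Matrix.conjTranspose_mul, Matrix.nonsing_inv_mul K hK, Matrix.conjTranspose_one]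
  have h3 : rdiag d * rdiag (fun i => (d i)⁻¹) = 1 := by
    rw [rdiag_mul, ← rdiag_one]
    exact congrArg rdiag (funext fun i => mul_inv_cancel₀ (hd i).ne')
  calc K * rdiag d * Kᴴ * (K⁻¹ᴴ * rdiag (fun i => (d i)⁻¹) * K⁻¹)
      = K * rdiag d * (Kᴴ * K⁻¹ᴴ) * rdiag (fun i => (d i)⁻¹) * K⁻¹ := by
        simp only [Matrix.mul_assoc]
    _ = K * (rdiag d * rdiag (fun i => (d i)⁻¹)) * K⁻¹ := by
        rw [h2, Matrix.mul_one]; simp only [Matrix.mul_assoc]
    _ = 1 := by rw [h3, Matrix.mul_one, Matrix.mul_nonsing_inv K hK]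

theorem mid_congr (M : Matrix α α ℂ) (f : α → ℝ) :
    (2⁻¹ : ℂ) • (M * Mᴴ + M * rdiag f * Mᴴ) = M * rdiag (fun i => (1 + f i) / 2) * Mᴴ := by
  have : rdiag (fun i => (1 + f i) / 2) = (2⁻¹ : ℂ) • (1 + rdiag f) := by
    rw [← rdiag_one, rdiag, rdiag, rdiag, Matrix.diagonal_add, ← Matrix.diagonal_smul]
    congr 1; funext i; simp; ring
  rw [this, Matrix.mul_smul, Matrix.smul_mul, Matrix.mul_add, Matrix.add_mul, Matrix.mul_one]

theorem block_psd (M : Matrix β α ℂ) (f g : α → ℝ) :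
    (Matrix.fromBlocks (M * rdiag (fun i => f i * f i) * Mᴴ) (M * rdiag (fun i => f i * g i) * Mᴴ)
      (M * rdiag (fun i => f i * g i) * Mᴴ) (M * rdiag (fun i => g i * g i) * Mᴴ)).PosSemidef := by
  have h := posSemidef_self_mul_conjTranspose
    (Matrix.fromRows (M * rdiag f) (M * rdiag g))
  rw [Matrix.conjTranspose_fromRows_eq_fromCols_conjTranspose, Matrix.fromRows_mul_fromCols,
    Matrix.conjTranspose_mul, Matrix.conjTranspose_mul, rdiag_conjTranspose,
    rdiag_conjTranspose] at h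
  have e : ∀ u v : α → ℝ, M * rdiag u * (rdiag v * Mᴴ) = M * rdiag (fun i => u i * v i) * Mᴴ :=
    fun u v => by rw [← rdiag_mul]; simp only [Matrix.mul_assoc]
  rw [e, e, e, e] at h
  have e2 : (fun i => g i * f i) = fun i => f i * g i := funext fun i => mul_comm _ _
  rw [e2] at h
  exact h

/-- Midpoint convexity of `gfun`. -/
theorem gfun_midpoint (a : Matrix α β ℂ) {E0 E1 : Matrix α α ℂ} {H0 H1 : Matrix β β ℂ}
    (hE0 : E0.PosDef) (hE1 : E1.PosDef) (hH0 : H0.PosDef) (hH1 : H1.PosDef) :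
    gfun a ((2⁻¹ : ℂ) • (E0 + E1)) ((2⁻¹ : ℂ) • (H0 + H1))
      ≤ (gfun a E0 H0 + gfun a E1 H1) / 2 := by
  obtain ⟨K, d, hK, hd0, hKE0, hKE1⟩ := simdiag hE0 hE1.posSemidef
  obtain ⟨L, e, hL, he0, hLH0, hLH1⟩ := simdiag hH0 hH1.posSemidef
  have hd : ∀ i, 0 < d i := fun i => (hd0 i).lt_of_ne fun h => by
    refine (det_re_pos hE1).1.ne' ?_
    rw [hKE1, Matrix.det_mul, Matrix.det_mul, det_rdiag,
      Finset.prod_eq_zero (Finset.mem_univ i) h.symm]
    simp
  have he : ∀ i, 0 < e i := fun i => (he0 i).lt_of_ne fun h => by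
    refine (det_re_pos hH1).1.ne' ?_
    rw [hLH1, Matrix.det_mul, Matrix.det_mul, det_rdiag,
      Finset.prod_eq_zero (Finset.mem_univ i) h.symm]
    simp
  set W := aᴴ * K⁻¹ᴴ with hW
  have hWt : Wᴴ = K⁻¹ * a := by simp [hW, Matrix.conjTranspose_mul]
  have hinv : ∀ f : α → ℝ, (∀ i, 0 < f i) →
      aᴴ * (K * rdiag f * Kᴴ)⁻¹ * a = W * rdiag (fun i => (f i)⁻¹) * Wᴴ := fun f hf => by
    rw [inv_conj_rdiag hK hf, hWt, hW]
    simp only [Matrix.mul_assoc]
  rw [hLH0, hLH1, mid_congr, hKE0, hKE1, mid_congr]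
  have h1d : K * Kᴴ = K * rdiag (fun _ => (1 : ℝ)) * Kᴴ := by rw [rdiag_one, Matrix.mul_one]
  unfold gfun
  rw [h1d, hinv _ (fun _ => one_pos), hinv _ hd, hinv _ fun i => by have := hd i; positivity]
  set sd := fun i => Real.sqrt (d i) with hsd
  set se := fun i => Real.sqrt (e i) with hse
  have hsd' : ∀ i, 0 < sd i := fun i => Real.sqrt_pos.2 (hd i)
  have hse' : ∀ i, 0 < se i := fun i => Real.sqrt_pos.2 (he i)
  set HX := L * rdiag se * Lᴴ with hHX
  set Y := W * rdiag (fun i => (sd i)⁻¹) * Wᴴ with hY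
  set Hm := L * rdiag (fun i => (1 + e i) / 2) * Lᴴ with hHm
  set Zm := W * rdiag (fun i => ((1 + d i) / 2)⁻¹) * Wᴴ with hZm
  set Z0 := W * rdiag (fun _ : α => ((1 : ℝ))⁻¹) * Wᴴ with hZ0
  set Z1 := W * rdiag (fun i => (d i)⁻¹) * Wᴴ with hZ1
  set P := L * Lᴴ + Z0 with hP
  set R := L * rdiag e * Lᴴ + Z1 with hR
  have psdW : ∀ f : α → ℝ, (∀ i, 0 ≤ f i) → (W * rdiag f * Wᴴ).PosSemidef := fun f hf =>
    (rdiag_psd hf).mul_mul_conjTranspose_same W
  have pL : (L * Lᴴ).PosDef := by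
    have := conj_pd hL (rdiag_pd (d := fun _ : β => (1 : ℝ)) fun _ => one_pos)
    rwa [rdiag_one, Matrix.mul_one] at this
  have pHX : HX.PosDef := conj_pd hL (rdiag_pd hse')
  have pHm : Hm.PosDef := conj_pd hL (rdiag_pd fun i => by have := he i; positivity)
  have pP : P.PosDef := pL.add_posSemidef (psdW _ fun _ => by simp)
  have pR : R.PosDef :=
    (conj_pd hL (rdiag_pd he)).add_posSemidef (psdW _ fun i => (inv_pos.2 (hd i)).le)
  have pQ : (HX + Y).PosDef := pHX.add_posSemidef (psdW _ fun i => (inv_pos.2 (hsd' i)).le)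
  have hblock : (Matrix.fromBlocks P (HX + Y) (HX + Y) R).PosSemidef := by
    have h := (block_psd L (fun _ => 1) se).add (block_psd W (fun _ => 1) fun i => (sd i)⁻¹)
    rw [Matrix.fromBlocks_add] at h
    simp only [one_mul, mul_one, hse, Real.mul_self_sqrt (he0 _), ← mul_inv, hsd,
      Real.mul_self_sqrt (hd0 _)] at h
    simpa [hP, hR, hHX, hY, hse, hsd, hZ0, hZ1, rdiag_one, Matrix.mul_one] using h
  have hb := det_block pP pQ.isHermitian hblock
  -- first comparison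
  have hc1 : (Hm + Zm).det.re ≤ (Hm + Y).det.re := by
    have hh := det_mono (psdW (fun i => (sd i)⁻¹ - ((1 + d i) / 2)⁻¹) fun i => sub_nonneg.2
      (inv_anti₀ (hsd' i) (by
        have := sq_nonneg (sd i - 1)
        have := Real.mul_self_sqrt (hd0 i)
        nlinarith)))
      ((pHm.add_posSemidef (psdW (fun i => ((1 + d i) / 2)⁻¹) fun i => by
        have := hd i; positivity)).posSemidef)
    convert hh using 3
    rw [hY]
    have : rdiag (fun i => (sd i)⁻¹ - ((1 + d i) / 2)⁻¹) + rdiag (fun i => ((1 + d i) / 2)⁻¹)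
        = rdiag (fun i => (sd i)⁻¹) := by simp [rdiag, Matrix.diagonal_add]
    rw [← this, Matrix.mul_add, Matrix.add_mul]
    abel
  -- second comparison
  have hc2 : (Hm + Y).det.re * HX.det.re ≤ (HX + Y).det.re * Hm.det.re := by
    set G := W * rdiag (fun i => Real.sqrt (sd i)⁻¹) with hG
    have hGG : Y = G * Gᴴ := by
      rw [hG, Matrix.conjTranspose_mul, rdiag_conjTranspose, hY, ← Matrix.mul_assoc,
        Matrix.mul_assoc W (rdiag _) (rdiag _), rdiag_mul]
      simp [← mul_inv, Real.mul_self_sqrt (hsd' _).le]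
    have form : ∀ f : β → ℝ, (∀ i, 0 < f i) → (L * rdiag f * Lᴴ + Y).det
        = (L * rdiag f * Lᴴ).det * (1 + Gᴴ * (L * rdiag f * Lᴴ)⁻¹ * G).det := fun f hf => by
      rw [hGG, Matrix.det_add_mul (A := L * rdiag f * Lᴴ) G Gᴴ
        ((Matrix.isUnit_iff_isUnit_det _).1 (conj_pd hL (rdiag_pd hf)).isUnit)]
    have hm0 : ∀ i, 0 < (1 + e i) / 2 := fun i => by have := he i; positivity
    rw [hHm, hHX, form _ hse', form _ hm0]
    obtain ⟨h1, h1i⟩ := det_re_pos (conj_pd hL (rdiag_pd hm0))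
    obtain ⟨h2, h2i⟩ := det_re_pos (conj_pd hL (rdiag_pd hse'))
    simp only [Complex.mul_re, h1i, h2i, zero_mul, sub_zero]
    have hle : ((1 : Matrix α α ℂ) + Gᴴ * (L * rdiag (fun i => (1 + e i) / 2) * Lᴴ)⁻¹ * G).det.re
        ≤ ((1 : Matrix α α ℂ) + Gᴴ * (L * rdiag se * Lᴴ)⁻¹ * G).det.re := by
      rw [inv_conj_rdiag hL hm0, inv_conj_rdiag hL hse']
      have hh := det_mono
        ((rdiag_psd (d := fun i => (se i)⁻¹ - ((1 + e i) / 2)⁻¹) fun i => sub_nonneg.2
          (inv_anti₀ (hse' i) (by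
            have := sq_nonneg (se i - 1)
            have := Real.mul_self_sqrt (he0 i)
            nlinarith))).conjTranspose_mul_mul_same (L⁻¹ * G))
        ((PosDef.one.posSemidef).add ((rdiag_psd (d := fun i => ((1 + e i) / 2)⁻¹) fun i =>
          (inv_pos.2 (hm0 i)).le).conjTranspose_mul_mul_same (L⁻¹ * G)))
      have hsum : rdiag (fun i => (se i)⁻¹ - ((1 + e i) / 2)⁻¹) + rdiag (fun i => ((1 + e i) / 2)⁻¹)
          = rdiag (fun i => (se i)⁻¹) := by simp [rdiag, Matrix.diagonal_add]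
      rw [add_left_comm, ← Matrix.add_mul, ← Matrix.mul_add, hsum, Matrix.conjTranspose_mul] at hh
      simpa only [Matrix.mul_assoc] using hh
    calc _ ≤ (L * rdiag (fun i => (1 + e i) / 2) * Lᴴ).det.re *
          ((1 : Matrix α α ℂ) + Gᴴ * (L * rdiag se * Lᴴ)⁻¹ * G).det.re *
            (L * rdiag se * Lᴴ).det.re := by gcongr
      _ = _ := by ring
  -- conclusion
  obtain ⟨p1, -⟩ := det_re_pos (pHm.add_posSemidef (psdW (fun i => ((1 + d i) / 2)⁻¹) fun i => by
    have := hd i; positivity))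
  obtain ⟨p2, p2i⟩ := det_re_pos pHX
  obtain ⟨p3, -⟩ := det_re_pos pHm
  obtain ⟨p4, -⟩ := det_re_pos pP
  obtain ⟨p5, -⟩ := det_re_pos pR
  obtain ⟨p6, -⟩ := det_re_pos pQ
  obtain ⟨p7, p7i⟩ := det_re_pos pL
  obtain ⟨p8, p8i⟩ := det_re_pos (conj_pd hL (rdiag_pd he))
  have hsq : HX.det.re ^ 2 = (L * Lᴴ).det.re * (L * rdiag e * Lᴴ).det.re := by
    have : HX.det * HX.det = (L * Lᴴ).det * (L * rdiag e * Lᴴ).det := by
      simp only [hHX, Matrix.det_mul, det_rdiag, hse]
      have : (∏ i, Real.sqrt (e i)) * ∏ i, Real.sqrt (e i) = ∏ i, e i := by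
        rw [← Finset.prod_mul_distrib]
        exact Finset.prod_congr rfl fun i _ => Real.mul_self_sqrt (he0 i)
      rw [← this]
      push_cast
      ring
    have := congrArg Complex.re this
    simp only [Complex.mul_re, p2i, p7i, p8i, mul_zero, sub_zero] at this
    rw [sq]
    exact this
  have hprod : (Hm + Zm).det.re * HX.det.re ≤ (HX + Y).det.re * Hm.det.re :=
    (mul_le_mul_of_nonneg_right hc1 p2.le).trans hc2
  have l1 := Real.log_le_log (mul_pos p1 p2) hprod
  rw [Real.log_mul p1.ne' p2.ne', Real.log_mul p6.ne' p3.ne'] at l1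
  have l2 := Real.log_le_log (by positivity) hb
  rw [Real.log_pow, Real.log_mul p4.ne' p5.ne'] at l2
  have l3 : 2 * Real.log HX.det.re
      = Real.log (L * Lᴴ).det.re + Real.log (L * rdiag e * Lᴴ).det.re := by
    rw [← Real.log_mul p7.ne' p8.ne', ← hsq, Real.log_pow]; norm_num
  norm_num at l2
  linarith

end Vale.Agent.P358
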