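import Vale.Agent.P358.Eta
import Vale.Agent.P358.Mean

/-!
The three-block entropy inequality: for `V = [[a, e], [g, 0]]`,
`eta (V Vᴴ) ≥ eta (a aᴴ) + eta (e eᴴ) + eta (g gᴴ) + psi X Y Z`.
-/

open Matrix
open scoped ComplexOrder

set_option linter.unusedSectionVars false

namespace Vale.Agent.P358

variable {α β κ : Type*} [Fintype α] [DecidableEq α] [Fintype β] [DecidableEq β] [Fintype κ]

/-- The larger root of `λ² - (x+y+z) λ + y z`. -/
noncomputable def rootP (x y z : ℝ) : ℝ :=
  (x + y + z + Real.sqrt ((x + y + z) ^ 2 - 4 * (y * z))) / 2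

/-- The smaller root of `λ² - (x+y+z) λ + y z`. -/
noncomputable def rootM (x y z : ℝ) : ℝ :=
  (x + y + z - Real.sqrt ((x + y + z) ^ 2 - 4 * (y * z))) / 2

/-- The scalar three-block function. -/
noncomputable def psi (x y z : ℝ) : ℝ :=
  Real.negMulLog (rootP x y z) + Real.negMulLog (rootM x y z)
    - Real.negMulLog x - Real.negMulLog y - Real.negMulLog z

theorem disc_nonneg {x y z : ℝ} (hx : 0 ≤ x) (hy : 0 ≤ y) (hz : 0 ≤ z) :
    0 ≤ (x + y + z) ^ 2 - 4 * (y * z) := by
  nlinarith [sq_nonneg (y - z), mul_nonneg hx (add_nonneg hy hz)]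

theorem root_nonneg {x y z : ℝ} (hx : 0 ≤ x) (hy : 0 ≤ y) (hz : 0 ≤ z) :
    0 ≤ rootP x y z ∧ 0 ≤ rootM x y z := by
  constructor
  · have := Real.sqrt_nonneg ((x + y + z) ^ 2 - 4 * (y * z))
    unfold rootP
    positivity
  · have : Real.sqrt ((x + y + z) ^ 2 - 4 * (y * z)) ≤ x + y + z :=
      (Real.sqrt_le_left (by positivity)).2 (by nlinarith [mul_nonneg hy hz])
    unfold rootM
    linarith

theorem root_add (x y z : ℝ) : rootP x y z + rootM x y z = x + y + z := by
  unfold rootP rootM; ring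

theorem root_mul {x y z : ℝ} (hx : 0 ≤ x) (hy : 0 ≤ y) (hz : 0 ≤ z) :
    rootP x y z * rootM x y z = y * z := by
  unfold rootP rootM
  linear_combination (-(1 : ℝ) / 4) * Real.mul_self_sqrt (disc_nonneg hx hy hz)

theorem log_roots {x y z s : ℝ} (hx : 0 ≤ x) (hy : 0 ≤ y) (hz : 0 ≤ z) (hs : 0 < s) :
    Real.log (rootP x y z + s) + Real.log (rootM x y z + s) - Real.log (y + s) - Real.log (z + s)
      = Real.log (1 + s * x / ((s + y) * (s + z))) := by
  obtain ⟨hp, hm⟩ := root_nonneg hx hy hz
  rw [← Real.log_mul (by positivity) (by positivity), ← Real.log_div (by positivity) (by positivity),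
    ← Real.log_div (by positivity) (by positivity)]
  congr 1
  have h := root_add x y z
  have h' := root_mul hx hy hz
  rw [show (rootP x y z + s) * (rootM x y z + s) = (s + y) * (s + z) + s * x by
    linear_combination h' + s * h]
  field_simp
  ring

theorem psi_zero {y z : ℝ} (hy : 0 ≤ y) (hz : 0 ≤ z) : psi 0 y z = 0 := by
  have hs : (0 + y + z) ^ 2 - 4 * (y * z) = (y - z) ^ 2 := by ring
  rcases le_total z y with h | h
  · have h1 : rootP 0 y z = y := by
      rw [rootP, hs, Real.sqrt_sq (by linarith)]; ring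
    have h2 : rootM 0 y z = z := by
      rw [rootM, hs, Real.sqrt_sq (by linarith)]; ring
    simp [psi, h1, h2]
  · have e : (y - z) ^ 2 = (z - y) ^ 2 := by ring
    have h1 : rootP 0 y z = z := by
      rw [rootP, hs, e, Real.sqrt_sq (by linarith)]; ring
    have h2 : rootM 0 y z = y := by
      rw [rootM, hs, e, Real.sqrt_sq (by linarith)]; ring
    simp [psi, h1, h2]

theorem psi_smul {c x y z : ℝ} (hc : 0 ≤ c) :
    psi (c * x) (c * y) (c * z) = c * psi x y z := by
  have hs : Real.sqrt ((c * x + c * y + c * z) ^ 2 - 4 * (c * y * (c * z)))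
      = c * Real.sqrt ((x + y + z) ^ 2 - 4 * (y * z)) := by
    rw [show (c * x + c * y + c * z) ^ 2 - 4 * (c * y * (c * z))
        = c ^ 2 * ((x + y + z) ^ 2 - 4 * (y * z)) by ring, Real.sqrt_mul (sq_nonneg c),
      Real.sqrt_sq hc]
  have hP : rootP (c * x) (c * y) (c * z) = c * rootP x y z := by
    rw [rootP, rootP, hs]; ring
  have hM : rootM (c * x) (c * y) (c * z) = c * rootM x y z := by
    rw [rootM, rootM, hs]; ring
  have h := root_add x y z
  simp only [psi, hP, hM, Real.negMulLog_mul]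
  linear_combination Real.negMulLog c * h

theorem log_tangent {p r : ℝ} (hp : 0 ≤ p) (hp1 : p < 1) (hr : 0 < r) :
    p * Real.log r ≤ Real.log (1 - p + p * r) := by
  have hA : 0 < 1 - p + p * r := add_pos_of_pos_of_nonneg (by linarith) (mul_nonneg hp hr.le)
  have h1 := Real.log_le_sub_one_of_pos (div_pos hr hA)
  have h2 := Real.log_le_sub_one_of_pos (inv_pos.2 hA)
  rw [Real.log_div hr.ne' hA.ne'] at h1
  rw [Real.log_inv] at h2
  have h3 : p * (r / (1 - p + p * r) - 1) + (1 - p) * ((1 - p + p * r)⁻¹ - 1) = 0 := by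
    field_simp; ring
  have := mul_le_mul_of_nonneg_left h1 hp
  have := mul_le_mul_of_nonneg_left h2 (by linarith : (0 : ℝ) ≤ 1 - p)
  linarith

/-- The tangent bound for `(u, w) ↦ log (1 + s / ((s+u)(s+w)))`. -/
theorem slot_tangent {s u w U W : ℝ} (hs : 0 < s) (hu : 0 ≤ u) (hw : 0 ≤ w) (hU : 0 ≤ U)
    (hW : 0 ≤ W) :
    Real.log (1 + s * 1 / ((s + U) * (s + W)))
        - s / ((s + U) * (s + W) + s) * ((u - U) / (s + U) + (w - W) / (s + W))
      ≤ Real.log (1 + s * 1 / ((s + u) * (s + w))) := by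
  set Q := (s + U) * (s + W) with hQ
  have hQp : 0 < Q := by positivity
  set q := (s + u) * (s + w) with hq
  have hqp : 0 < q := by positivity
  set p := s / (Q + s) with hp
  have hp0 : 0 ≤ p := by positivity
  have hp1 : p < 1 := by rw [hp, div_lt_one (by positivity)]; linarith
  have h := log_tangent hp0 hp1 (div_pos hQp hqp)
  have e : 1 - p + p * (Q / q) = (1 + s * 1 / q) / (1 + s * 1 / Q) := by
    rw [hp]; field_simp; ring
  rw [e, Real.log_div hQp.ne' hqp.ne', Real.log_div (by positivity) (by positivity)] at h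
  have h1 := Real.log_le_sub_one_of_pos (show (0 : ℝ) < (s + u) / (s + U) by positivity)
  have h2 := Real.log_le_sub_one_of_pos (show (0 : ℝ) < (s + w) / (s + W) by positivity)
  rw [Real.log_div (by positivity) (by positivity)] at h1 h2
  have e1 : (s + u) / (s + U) - 1 = (u - U) / (s + U) := by field_simp; ring
  have e2 : (s + w) / (s + W) - 1 = (w - W) / (s + W) := by field_simp; ring
  have h3 : Real.log q - Real.log Q ≤ (u - U) / (s + U) + (w - W) / (s + W) := by
    rw [hq, hQ, Real.log_mul (by positivity) (by positivity),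
      Real.log_mul (by positivity) (by positivity)]
    linarith
  have := mul_le_mul_of_nonneg_left h3 hp0
  linarith

/-- Coarse graining of `psi`. -/
theorem psi_sum_le (x e g : β → ℝ) (hx : ∀ i, 0 ≤ x i) (he : ∀ i, 0 ≤ e i) (hg : ∀ i, 0 ≤ g i)
    {Y Z : ℝ} (hY : ∑ i, e i ≤ Y) (hZ : ∑ i, g i ≤ Z) :
    psi (∑ i, x i) Y Z ≤ ∑ i, psi (x i) (e i) (g i) := by
  have hY0 : 0 ≤ Y := (Finset.sum_nonneg fun i _ => he i).trans hY
  have hZ0 : 0 ≤ Z := (Finset.sum_nonneg fun i _ => hg i).trans hZ
  rcases eq_or_lt_of_le (Finset.sum_nonneg fun i (_ : i ∈ Finset.univ) => hx i) with hX | hX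
  · have h0 : ∀ i, x i = 0 := fun i =>
      (Finset.sum_eq_zero_iff_of_nonneg fun j _ => hx j).1 hX.symm i (Finset.mem_univ i)
    rw [← hX, psi_zero hY0 hZ0]
    exact Finset.sum_nonneg fun i _ => by rw [h0 i, psi_zero (he i) (hg i)]
  set X := ∑ i, x i with hXdef
  have hi : ∀ i, psi (x i) (e i) (g i) = x i * psi 1 (e i / x i) (g i / x i) := fun i => by
    rcases eq_or_lt_of_le (hx i) with h | h
    · rw [← h, psi_zero (he i) (hg i), zero_mul]
    · rw [← psi_smul (hx i), mul_one, mul_div_cancel₀ _ h.ne', mul_div_cancel₀ _ h.ne']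
  have hbar : psi X Y Z = X * psi 1 (Y / X) (Z / X) := by
    rw [← psi_smul hX.le, mul_one, mul_div_cancel₀ _ hX.ne', mul_div_cancel₀ _ hX.ne']
  simp only [hi]
  rw [hbar]
  set u := fun i => e i / x i with hu
  set w := fun i => g i / x i with hw
  set U := Y / X with hU
  set W := Z / X with hW
  have hu0 : ∀ i, 0 ≤ u i := fun i => div_nonneg (he i) (hx i)
  have hw0 : ∀ i, 0 ≤ w i := fun i => div_nonneg (hg i) (hx i)
  have hU0 : 0 ≤ U := div_nonneg hY0 hX.le
  have hW0 : 0 ≤ W := div_nonneg hZ0 hX.le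
  let c : Option β × Fin 4 → ℝ := fun k => (k.1.elim (-X) x) * ![1, 1, -1, -1] k.2
  let pt : Option β × Fin 4 → ℝ := fun k =>
    ![rootP 1 (k.1.elim U u) (k.1.elim W w), rootM 1 (k.1.elim U u) (k.1.elim W w),
      k.1.elim U u, k.1.elim W w] k.2
  have key := sum_negMulLog_nonneg Finset.univ c pt ?_ ?_ ?_ ?_
  · have e1 : ∀ a b d, psi 1 b d + a = Real.negMulLog (rootP 1 b d)
        + Real.negMulLog (rootM 1 b d) - Real.negMulLog b - Real.negMulLog d + a := fun a b d => by
      simp [psi]
    simp only [c, pt, Fintype.sum_prod_type, Fintype.sum_option, Fin.sum_univ_four] at key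
    simp [Finset.sum_add_distrib] at key
    simp only [psi, Real.negMulLog_one, sub_zero]
    simp only [mul_sub, mul_add, Finset.sum_sub_distrib, Finset.sum_add_distrib]
    linarith
  · rintro ⟨k, j⟩ -
    have h1 : 0 ≤ k.elim U u := by cases k <;> simp [hU0, hu0]
    have h2 : 0 ≤ k.elim W w := by cases k <;> simp [hW0, hw0]
    obtain ⟨h3, h4⟩ := root_nonneg zero_le_one h1 h2
    fin_cases j <;> simp [pt, h1, h2, h3, h4]
  · simp only [c, Fintype.sum_prod_type, Fin.sum_univ_four]
    simp
  · have e1 : ∀ k : Option β, ∑ j, c (k, j) * pt (k, j) = k.elim (-X) x := fun k => by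
      have h := root_add 1 (k.elim U u) (k.elim W w)
      simp only [c, pt, Fin.sum_univ_four]
      simp
      linear_combination k.elim (-X) x * h
    rw [Fintype.sum_prod_type, Fintype.sum_congr _ _ e1, Fintype.sum_option]
    simp [hXdef]
  · intro s hs
    set C := s / ((s + U) * (s + W) + s) with hC
    have e1 : ∀ k : Option β, ∑ j, c (k, j) * Real.log (pt (k, j) + s)
        = k.elim (-X) x * Real.log (1 + s * 1 / ((s + k.elim U u) * (s + k.elim W w))) := fun k => by
      have h1 : 0 ≤ k.elim U u := by cases k <;> simp [hU0, hu0]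
      have h2 : 0 ≤ k.elim W w := by cases k <;> simp [hW0, hw0]
      rw [← log_roots zero_le_one h1 h2 hs]
      simp only [c, pt, Fin.sum_univ_four]
      simp
      ring
    rw [Fintype.sum_prod_type, Fintype.sum_congr _ _ e1, Fintype.sum_option]
    simp only [Option.elim_none, Option.elim_some]
    set L := Real.log (1 + s * 1 / ((s + U) * (s + W))) with hL
    have h : ∀ i, x i * L - C * ((x i * u i - x i * U) / (s + U) + (x i * w i - x i * W) / (s + W))
        ≤ x i * Real.log (1 + s * 1 / ((s + u i) * (s + w i))) := fun i => by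
      refine le_trans (le_of_eq ?_)
        (mul_le_mul_of_nonneg_left (slot_tangent hs (hu0 i) (hw0 i) hU0 hW0) (hx i))
      rw [← hC, ← hL]; ring
    have hs1 := Finset.sum_le_sum fun i (_ : i ∈ Finset.univ) => h i
    rw [Finset.sum_sub_distrib, ← Finset.mul_sum, Finset.sum_add_distrib, ← Finset.sum_div,
      ← Finset.sum_div, Finset.sum_sub_distrib, Finset.sum_sub_distrib, ← Finset.sum_mul,
      ← Finset.sum_mul, ← Finset.sum_mul] at hs1
    have hxu : ∑ i, x i * u i ≤ X * U := by
      rw [hU, mul_div_cancel₀ _ hX.ne']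
      refine le_trans (Finset.sum_le_sum fun i _ => ?_) hY
      rcases eq_or_lt_of_le (hx i) with h | h
      · simp [u, ← h, he i]
      · simp [u, mul_div_cancel₀ _ h.ne']
    have hxw : ∑ i, x i * w i ≤ X * W := by
      rw [hW, mul_div_cancel₀ _ hX.ne']
      refine le_trans (Finset.sum_le_sum fun i _ => ?_) hZ
      rcases eq_or_lt_of_le (hx i) with h | h
      · simp [w, ← h, hg i]
      · simp [w, mul_div_cancel₀ _ h.ne']
    have hC0 : 0 ≤ C := by positivity
    have h5 : C * ((∑ i, x i * u i - X * U) / (s + U) + (∑ i, x i * w i - X * W) / (s + W)) ≤ 0 :=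
      mul_nonpos_of_nonneg_of_nonpos hC0 (add_nonpos
        (div_nonpos_of_nonpos_of_nonneg (by linarith) (by positivity))
        (div_nonpos_of_nonpos_of_nonneg (by linarith) (by positivity)))
    linarith

/-- The real diagonal indicator of one index. -/
def delta (i : β) : Matrix β β ℂ := rdiag fun j => if j = i then 1 else 0

/-- The sign flip of one index. -/
def flipD (i : β) : Matrix β β ℂ := rdiag fun j => if j = i then -1 else 1

theorem flipD_eq (i : β) : flipD i = 1 - (2 : ℂ) • delta i := by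
  ext j k
  by_cases h : j = k <;> by_cases h' : j = i <;> simp_all [flipD, delta, rdiag] <;> norm_num

theorem flipD_sq (i : β) : flipD i * flipD i = 1 := by
  rw [flipD, rdiag_mul, ← rdiag_one]
  exact congrArg rdiag (funext fun j => by split <;> norm_num)

theorem delta_sandwich (i : β) (M : Matrix β β ℂ) : delta i * M * delta i = M i i • delta i := by
  ext j k
  by_cases h : j = i <;> by_cases h' : k = i <;> simp_all [delta, rdiag, diagonal_apply, Ne.symm]

theorem sum_delta : ∑ i : β, delta i = (1 : Matrix β β ℂ) := by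
  ext j k
  rw [Matrix.sum_apply, Matrix.one_apply]
  by_cases h : j = k <;> simp [delta, rdiag, h, apply_ite]

section Pinch

variable (a : Matrix α β ℂ) (x : β → ℝ)

/-- The projection on the span of column `i`. -/
noncomputable def colProj (i : β) : Matrix α α ℂ := ((x i)⁻¹ : ℂ) • (a * delta i * aᴴ)

/-- The reflection fixing everything orthogonal to column `i`. -/
noncomputable def colFlip (i : β) : Matrix α α ℂ := 1 - (2 : ℂ) • colProj a x i

variable {a x}

theorem col_zero (ha : aᴴ * a = rdiag x) {i : β} (hi : x i = 0) : a * delta i = 0 := by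
  rw [← Matrix.conjTranspose_mul_self_eq_zero, Matrix.conjTranspose_mul, delta,
    rdiag_conjTranspose, Matrix.mul_assoc, ← Matrix.mul_assoc aᴴ, ha, rdiag_mul, rdiag_mul]
  rw [show (fun j => (if j = i then (1 : ℝ) else 0) * (x j * if j = i then 1 else 0))
    = fun _ => 0 from funext fun j => by split <;> simp_all]
  simp [rdiag]

theorem colProj_mul (ha : aᴴ * a = rdiag x) (i : β) : colProj a x i * a = a * delta i := by
  rw [colProj, Matrix.smul_mul, Matrix.mul_assoc _ aᴴ a, ha]
  by_cases hi : x i = 0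
  · simp [col_zero ha hi]
  · rw [Matrix.mul_assoc, delta, rdiag_mul, ← Matrix.mul_smul]
    congr 1
    ext j k
    by_cases h : j = k <;> by_cases h' : j = i <;> simp_all [rdiag]

theorem colProj_isHermitian (i : β) : (colProj a x i)ᴴ = colProj a x i := by
  rw [colProj, Matrix.conjTranspose_smul, Matrix.conjTranspose_mul, Matrix.conjTranspose_mul,
    delta, rdiag_conjTranspose, Matrix.conjTranspose_conjTranspose, Matrix.mul_assoc]
  simp

theorem colProj_mul_colProj (ha : aᴴ * a = rdiag x) (i j : β) :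
    colProj a x i * colProj a x j = if i = j then colProj a x i else 0 := by
  conv_lhs => rw [show colProj a x j = ((x j)⁻¹ : ℂ) • (a * delta j * aᴴ) from rfl]
  rw [Matrix.mul_smul, ← Matrix.mul_assoc, ← Matrix.mul_assoc, colProj_mul ha,
    Matrix.mul_assoc a (delta i) (delta j), delta, delta, rdiag_mul]
  by_cases h : i = j
  · subst h
    rw [if_pos rfl, colProj, delta]
    congr 4
    funext k; split <;> simp
  · rw [if_neg h, show (fun k => (if k = i then (1 : ℝ) else 0) * if k = j then 1 else 0)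
      = fun _ => 0 from funext fun k => by by_cases hk : k = i <;> simp_all]
    simp [rdiag]

theorem colFlip_mul (ha : aᴴ * a = rdiag x) (i : β) : colFlip a x i * a = a * flipD i := by
  rw [colFlip, flipD_eq, Matrix.sub_mul, Matrix.mul_sub, Matrix.one_mul, Matrix.mul_one,
    Matrix.smul_mul, Matrix.mul_smul, colProj_mul ha]

theorem colFlip_comm (ha : aᴴ * a = rdiag x) (i j : β) :
    colFlip a x i * colFlip a x j = colFlip a x j * colFlip a x i := by
  have h : colProj a x i * colProj a x j = colProj a x j * colProj a x i := by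
    rw [colProj_mul_colProj ha, colProj_mul_colProj ha]
    by_cases h : i = j
    · rw [h]
    · rw [if_neg h, if_neg (Ne.symm h)]
  simp only [colFlip, Matrix.sub_mul, Matrix.mul_sub, Matrix.one_mul, Matrix.mul_one,
    Matrix.smul_mul, Matrix.mul_smul, h]
  module

theorem colFlip_sq (ha : aᴴ * a = rdiag x) (i : β) : colFlip a x i * colFlip a x i = 1 := by
  simp only [colFlip, Matrix.sub_mul, Matrix.mul_sub, Matrix.one_mul, Matrix.mul_one,
    Matrix.smul_mul, Matrix.mul_smul, colProj_mul_colProj ha, if_pos]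
  module

theorem colFlip_isHermitian (i : β) : (colFlip a x i)ᴴ = colFlip a x i := by
  simp [colFlip, Matrix.conjTranspose_smul, colProj_isHermitian]

theorem gfun_flip (ha : aᴴ * a = rdiag x) (i : β) (E : Matrix α α ℂ) (hE : E.PosDef)
    (H : Matrix β β ℂ) :
    gfun a (colFlip a x i * E * colFlip a x i) (flipD i * H * flipD i) = gfun a E H := by
  set D := colFlip a x i with hD
  have hinv : (D * E * D)⁻¹ = D * E⁻¹ * D := by
    refine Matrix.inv_eq_right_inv ?_
    calc D * E * D * (D * E⁻¹ * D) = D * E * (D * D) * E⁻¹ * D := by simp only [Matrix.mul_assoc]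
      _ = D * (E * E⁻¹) * D := by rw [colFlip_sq ha, Matrix.mul_one, Matrix.mul_assoc D]
      _ = 1 := by
          rw [Matrix.mul_nonsing_inv _ ((Matrix.isUnit_iff_isUnit_det _).1 hE.isUnit),
            Matrix.mul_one, colFlip_sq ha]
  have h1 : aᴴ * D = flipD i * aᴴ := by
    have := congrArg Matrix.conjTranspose (colFlip_mul ha i)
    rwa [Matrix.conjTranspose_mul, Matrix.conjTranspose_mul, colFlip_isHermitian, flipD,
      rdiag_conjTranspose] at this
  have h2 : aᴴ * (D * E⁻¹ * D) * a = flipD i * (aᴴ * E⁻¹ * a) * flipD i := by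
    calc _ = (aᴴ * D) * E⁻¹ * (D * a) := by simp only [Matrix.mul_assoc]
      _ = _ := by rw [h1, colFlip_mul ha]; simp only [Matrix.mul_assoc]
  have hdet : ∀ M : Matrix β β ℂ, (flipD i * M * flipD i).det = M.det := fun M => by
    rw [Matrix.det_mul_right_comm, flipD_sq, Matrix.one_mul]
  rw [gfun, gfun, hinv, h2, ← Matrix.add_mul, ← Matrix.mul_add, hdet, hdet]

/-- Pinching along the columns of `a` decreases `gfun`. -/
theorem gfun_pinch (ha : aᴴ * a = rdiag x) {E : Matrix α α ℂ} {H : Matrix β β ℂ} (hE : E.PosDef)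
    (hH : H.PosDef) (S : Finset β) :
    ∃ E' H', E'.PosDef ∧ H'.PosDef ∧ gfun a E' H' ≤ gfun a E H ∧ (∀ i, H' i i = H i i) ∧
      (∀ i, (aᴴ * E' * a) i i = (aᴴ * E * a) i i) ∧
      (∀ i ∈ S, (∀ j, j ≠ i → H' i j = 0) ∧ colFlip a x i * E' = E' * colFlip a x i) := by
  induction S using Finset.induction_on with
  | empty => exact ⟨E, H, hE, hH, le_rfl, fun _ => rfl, fun _ => rfl, by simp⟩
  | insert i S hi ih =>
    obtain ⟨E', H', hE', hH', hle, hHd, hEd, hS⟩ := ih
    set D := colFlip a x i with hD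
    set d := flipD i with hd
    have hDu : IsUnit D.det := by
      have h := congrArg Matrix.det (colFlip_sq ha i)
      rw [Matrix.det_mul, Matrix.det_one] at h
      exact IsUnit.of_mul_eq_one _ h
    have hdu : IsUnit d.det := by
      have h := congrArg Matrix.det (flipD_sq i)
      rw [Matrix.det_mul, Matrix.det_one] at h
      exact IsUnit.of_mul_eq_one _ h
    have hE2 : (D * E' * D).PosDef := by
      have := conj_pd hDu hE'
      rwa [colFlip_isHermitian] at this
    have hH2 : (d * H' * d).PosDef := by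
      have := conj_pd hdu hH'
      rwa [show dᴴ = d by rw [hd, flipD, rdiag_conjTranspose]] at this
    have h2 : (0 : ℂ) < 2⁻¹ := by
      rw [show (2⁻¹ : ℂ) = ((2⁻¹ : ℝ) : ℂ) by norm_num]
      exact_mod_cast (by norm_num : (0 : ℝ) < 2⁻¹)
    have hentry : ∀ j k, ((2⁻¹ : ℂ) • (H' + d * H' * d)) j k
        = (1 + (if j = i then -1 else 1) * (if k = i then -1 else 1)) / 2 * H' j k := fun j k => by
      simp only [Matrix.smul_apply, Matrix.add_apply, smul_eq_mul, hd, flipD, rdiag,
        Matrix.diagonal_mul, Matrix.mul_diagonal]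
      split <;> split <;> push_cast <;> ring
    refine ⟨(2⁻¹ : ℂ) • (E' + D * E' * D), (2⁻¹ : ℂ) • (H' + d * H' * d),
      (hE'.add hE2).smul h2, (hH'.add hH2).smul h2, ?_, ?_, ?_, ?_⟩
    · refine le_trans (le_trans (gfun_midpoint a hE' hE2 hH' hH2) (le_of_eq ?_)) hle
      rw [gfun_flip ha i E' hE' H']; ring
    · intro j
      rw [hentry, ← hHd j]
      split <;> ring
    · intro j
      rw [← hEd j]
      have h1 : aᴴ * D = d * aᴴ := by
        have := congrArg Matrix.conjTranspose (colFlip_mul ha i)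
        rwa [Matrix.conjTranspose_mul, Matrix.conjTranspose_mul, colFlip_isHermitian, flipD,
          rdiag_conjTranspose] at this
      have e : aᴴ * (D * E' * D) * a = d * (aᴴ * E' * a) * d := by
        calc _ = (aᴴ * D) * E' * (D * a) := by simp only [Matrix.mul_assoc]
          _ = _ := by rw [h1, colFlip_mul ha]; simp only [Matrix.mul_assoc, ← hd]
      rw [Matrix.mul_smul, Matrix.smul_mul, Matrix.mul_add, Matrix.add_mul, e]
      simp only [Matrix.smul_apply, Matrix.add_apply, smul_eq_mul, hd, flipD, rdiag,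
        Matrix.diagonal_mul, Matrix.mul_diagonal]
      split <;> push_cast <;> ring
    · intro k hk
      refine ⟨fun j hj => ?_, ?_⟩
      · rw [hentry]
        rcases Finset.mem_insert.1 hk with rfl | hk
        · simp [hj]
        · rw [(hS k hk).1 j hj, mul_zero]
      · rcases Finset.mem_insert.1 hk with rfl | hk
        · rw [Matrix.mul_smul, Matrix.smul_mul, Matrix.mul_add, Matrix.add_mul, ← hD]
          congr 1
          rw [← Matrix.mul_assoc D, ← Matrix.mul_assoc D, colFlip_sq ha, Matrix.one_mul,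
            Matrix.mul_assoc (D * E') D D, colFlip_sq ha, Matrix.mul_one, add_comm]
        · rw [Matrix.mul_smul, Matrix.smul_mul, Matrix.mul_add, Matrix.add_mul]
          congr 2
          · exact (hS k hk).2
          · have hc := (hS k hk).2
            have hc' := colFlip_comm ha k i
            calc _ = (colFlip a x k * D) * E' * D := by simp only [Matrix.mul_assoc]
              _ = D * (colFlip a x k * E') * D := by rw [hc']; simp only [Matrix.mul_assoc, ← hD]
              _ = D * E' * (colFlip a x k * D) := by rw [hc]; simp only [Matrix.mul_assoc]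
              _ = _ := by rw [hc']; simp only [Matrix.mul_assoc, ← hD]

/-- The lower bound of `gfun` by its fully pinched value. -/
theorem gfun_lower (ha : aᴴ * a = rdiag x) {E : Matrix α α ℂ} {H : Matrix β β ℂ} (hE : E.PosDef)
    (hH : H.PosDef) (ev : β → ℝ) (hev : ∀ i, 0 < ev i)
    (hq : ∀ i, (aᴴ * E * a) i i = (ev i : ℂ) * x i) :
    ∑ i, Real.log (1 + x i / (ev i * (H i i).re)) ≤ gfun a E H := by
  obtain ⟨E', H', hE', hH', hle, hHd, hEd, hS⟩ := gfun_pinch ha hE hH Finset.univ
  have hx0 : ∀ i, 0 ≤ x i := fun i => by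
    have h := (posSemidef_conjTranspose_mul_self a).diag_nonneg (i := i)
    rw [ha] at h
    simpa [rdiag] using h
  have hcol : ∀ i, E' * a * delta i = (ev i : ℂ) • (a * delta i) := by
    intro i
    by_cases hi : x i = 0
    · rw [Matrix.mul_assoc, col_zero ha hi]; simp
    have hP : colProj a x i * E' = E' * colProj a x i := by
      have h := (hS i (Finset.mem_univ i)).2
      rw [colFlip, Matrix.sub_mul, Matrix.mul_sub, Matrix.one_mul, Matrix.mul_one,
        Matrix.smul_mul, Matrix.mul_smul, sub_right_inj] at h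
      exact smul_right_injective _ (two_ne_zero) h
    have hdd : a * delta i = a * delta i * delta i := by
      rw [Matrix.mul_assoc, delta, rdiag_mul]
      congr 2; funext j; split <;> simp
    calc E' * a * delta i = E' * (colProj a x i * a) * delta i := by
          rw [colProj_mul ha]
          conv_lhs => rw [Matrix.mul_assoc, hdd]
          try simp only [Matrix.mul_assoc]
      _ = colProj a x i * E' * a * delta i := by rw [← Matrix.mul_assoc, ← hP]
      _ = ((x i)⁻¹ : ℂ) • (a * (delta i * (aᴴ * E' * a) * delta i)) := by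
          rw [colProj]; simp only [Matrix.smul_mul, Matrix.mul_assoc]
      _ = _ := by
          rw [delta_sandwich, hEd, hq, Matrix.mul_smul, smul_smul]
          congr 1
          field_simp
  have hEa : E' * a = a * rdiag ev := by
    have h1 : rdiag ev = ∑ i, (ev i : ℂ) • delta i := by
      ext j k
      by_cases h : j = k <;> simp [Matrix.sum_apply, delta, rdiag, h, apply_ite]
    rw [h1, Matrix.mul_sum]
    conv_lhs => rw [← Matrix.mul_one (E' * a), ← sum_delta, Matrix.mul_sum]
    exact Finset.sum_congr rfl fun i _ => by rw [hcol, Matrix.mul_smul]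
  have hEu := (Matrix.isUnit_iff_isUnit_det _).1 hE'.isUnit
  have hinv : aᴴ * E'⁻¹ * a = rdiag (fun i => x i / ev i) := by
    have h1 : E'⁻¹ * a = a * rdiag (fun i => (ev i)⁻¹) := by
      have h2 : a = E' * a * rdiag (fun i => (ev i)⁻¹) := by
        rw [hEa, Matrix.mul_assoc, rdiag_mul,
          show (fun i => ev i * (ev i)⁻¹) = fun _ => (1 : ℝ) from
            funext fun i => mul_inv_cancel₀ (hev i).ne', rdiag_one, Matrix.mul_one]
      conv_lhs => rw [h2, Matrix.mul_assoc E', ← Matrix.mul_assoc, Matrix.nonsing_inv_mul _ hEu,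
        Matrix.one_mul]
    rw [Matrix.mul_assoc, h1, ← Matrix.mul_assoc, ha, rdiag_mul]
    rfl
  set h := fun i => (H i i).re with hh
  have hpos : ∀ i, 0 < h i := fun i => by
    have := hH.diag_pos (i := i)
    rw [Complex.lt_def] at this
    simpa [h] using this.1
  have hH'eq : H' = rdiag h := by
    ext i j
    by_cases hij : i = j
    · subst hij
      have := hH.isHermitian.apply i i
      rw [hHd, rdiag, Matrix.diagonal_apply_eq]
      exact (Complex.conj_eq_iff_re.1 this).symm
    · rw [(hS i (Finset.mem_univ i)).1 j (Ne.symm hij), rdiag, Matrix.diagonal_apply_ne _ hij]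
  refine le_trans (le_of_eq ?_) hle
  have hsum : rdiag h + rdiag (fun i => x i / ev i) = rdiag (fun i => h i + x i / ev i) := by
    simp [rdiag, Matrix.diagonal_add]
  rw [gfun, hH'eq, hinv, hsum, det_rdiag, det_rdiag, Complex.ofReal_re, Complex.ofReal_re,
    Real.log_prod fun i _ => (hpos i).ne', Real.log_prod fun i _ => ?_, ← Finset.sum_sub_distrib]
  · refine Finset.sum_congr rfl fun i _ => ?_
    have := hpos i; have := hev i; have := hx0 i
    rw [← Real.log_div (by positivity) (by positivity)]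
    congr 1
    change 1 + x i / (ev i * h i) = _
    field_simp
  · have := hpos i; have := hev i; have := hx0 i
    positivity

end Pinch

theorem log_det_shift {ι : Type*} [Fintype ι] [DecidableEq ι] {M : Matrix ι ι ℂ}
    (hM : M.PosSemidef) {s : ℝ} (hs : 0 < s) :
    Real.log ((s : ℂ) • (1 : Matrix ι ι ℂ) + M).det.re
      = ∑ i, Real.log (hM.isHermitian.eigenvalues i + s) := by
  rw [det_shift hM.isHermitian, Complex.ofReal_re, Real.log_prod fun i _ => ?_]
  · exact Finset.sum_congr rfl fun i _ => by rw [add_comm]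
  · have := hM.eigenvalues_nonneg i
    positivity

theorem shift_pd {ι : Type*} [Fintype ι] [DecidableEq ι] {M : Matrix ι ι ℂ}
    (hM : M.PosSemidef) {s : ℝ} (hs : 0 < s) : ((s : ℂ) • (1 : Matrix ι ι ℂ) + M).PosDef :=
  (PosDef.one.smul (by exact_mod_cast hs)).add_posSemidef hM

/-- The block matrix `V Vᴴ` for `V = [[a, e], [g, 0]]`. -/
def blockMat {μ : Type*} [Fintype μ] (a : Matrix α μ ℂ) (e : Matrix α κ ℂ) (g : Matrix β μ ℂ) :
    Matrix (α ⊕ β) (α ⊕ β) ℂ :=
  Matrix.fromBlocks (a * aᴴ + e * eᴴ) (a * gᴴ) (g * aᴴ) (g * gᴴ)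

theorem blockMat_psd {μ : Type*} [Fintype μ] (a : Matrix α μ ℂ) (e : Matrix α κ ℂ)
    (g : Matrix β μ ℂ) : (blockMat a e g).PosSemidef := by
  have h := posSemidef_self_mul_conjTranspose (Matrix.fromBlocks a e g 0)
  rwa [Matrix.fromBlocks_conjTranspose, Matrix.fromBlocks_multiply, Matrix.conjTranspose_zero,
    Matrix.mul_zero, Matrix.mul_zero, Matrix.zero_mul, add_zero, add_zero, add_zero] at h

theorem det_blockMat {μ : Type*} [Fintype μ] [DecidableEq μ] (a : Matrix α μ ℂ)
    (e : Matrix α κ ℂ) (g : Matrix β μ ℂ) {s : ℝ} (hs : 0 < s) :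
    ((s : ℂ) • (1 : Matrix (α ⊕ β) (α ⊕ β) ℂ) + blockMat a e g).det
        * ((s : ℂ) • (1 : Matrix μ μ ℂ) + gᴴ * g).det
      = ((s : ℂ) • (1 : Matrix β β ℂ) + g * gᴴ).det
        * ((s : ℂ) • (1 : Matrix α α ℂ) + e * eᴴ).det
        * ((s : ℂ) • (1 : Matrix μ μ ℂ) + gᴴ * g
            + (s : ℂ) • (aᴴ * ((s : ℂ) • (1 : Matrix α α ℂ) + e * eᴴ)⁻¹ * a)).det := by
  set R := (s : ℂ) • (1 : Matrix β β ℂ) + g * gᴴ with hR
  set E := (s : ℂ) • (1 : Matrix α α ℂ) + e * eᴴ with hE
  set H := (s : ℂ) • (1 : Matrix μ μ ℂ) + gᴴ * g with hH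
  have pR : R.PosDef := shift_pd (posSemidef_self_mul_conjTranspose g) hs
  have pE : E.PosDef := shift_pd (posSemidef_self_mul_conjTranspose e) hs
  have pH : H.PosDef := shift_pd (posSemidef_conjTranspose_mul_self g) hs
  have uR := (Matrix.isUnit_iff_isUnit_det _).1 pR.isUnit
  have uE := (Matrix.isUnit_iff_isUnit_det _).1 pE.isUnit
  have uH := (Matrix.isUnit_iff_isUnit_det _).1 pH.isUnit
  let _ := pR.isUnit.invertible
  have h1 : H * gᴴ = gᴴ * R := by
    rw [hH, hR, Matrix.add_mul, Matrix.mul_add, Matrix.smul_mul, Matrix.mul_smul, Matrix.one_mul,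
      Matrix.mul_one, Matrix.mul_assoc]
  have h2 : gᴴ * R⁻¹ = H⁻¹ * gᴴ := by
    calc gᴴ * R⁻¹ = H⁻¹ * (H * gᴴ) * R⁻¹ := by
          rw [← Matrix.mul_assoc, Matrix.nonsing_inv_mul _ uH, Matrix.one_mul]
      _ = _ := by
          rw [h1, Matrix.mul_assoc, Matrix.mul_assoc gᴴ, Matrix.mul_nonsing_inv _ uR,
            Matrix.mul_one]
  have h3 : gᴴ * R⁻¹ * g = 1 - (s : ℂ) • H⁻¹ := by
    have : gᴴ * g = H - (s : ℂ) • (1 : Matrix μ μ ℂ) := by rw [hH]; abel
    rw [h2, Matrix.mul_assoc, this, Matrix.mul_sub, Matrix.nonsing_inv_mul _ uH, Matrix.mul_smul,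
      Matrix.mul_one]
  have hblk : (s : ℂ) • (1 : Matrix (α ⊕ β) (α ⊕ β) ℂ) + blockMat a e g
      = Matrix.fromBlocks (E + a * aᴴ) (a * gᴴ) (g * aᴴ) R := by
    rw [← Matrix.fromBlocks_one, Matrix.fromBlocks_smul, blockMat, Matrix.fromBlocks_add,
      smul_zero, smul_zero, zero_add, zero_add, hE, add_assoc, add_comm (e * eᴴ)]
  have h4 : a * gᴴ * ⅟R * (g * aᴴ) = a * aᴴ - a * ((s : ℂ) • H⁻¹) * aᴴ := by
    rw [Matrix.invOf_eq_nonsing_inv]
    calc _ = a * (gᴴ * R⁻¹ * g) * aᴴ := by simp only [Matrix.mul_assoc]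
      _ = _ := by rw [h3, Matrix.mul_sub, Matrix.sub_mul, Matrix.mul_one]
  rw [hblk, Matrix.det_fromBlocks₂₂, h4,
    show E + a * aᴴ - (a * aᴴ - a * ((s : ℂ) • H⁻¹) * aᴴ) = E + a * (((s : ℂ) • H⁻¹) * aᴴ) by
      rw [← Matrix.mul_assoc]; abel,
    Matrix.det_add_mul (A := E) a (((s : ℂ) • H⁻¹) * aᴴ) uE]
  have h5 : H * (1 + (s : ℂ) • H⁻¹ * aᴴ * E⁻¹ * a) = H + (s : ℂ) • (aᴴ * E⁻¹ * a) := by
    rw [Matrix.mul_add, Matrix.mul_one, Matrix.smul_mul, Matrix.smul_mul, Matrix.smul_mul,
      Matrix.mul_smul, Matrix.mul_assoc H⁻¹, Matrix.mul_assoc H⁻¹, ← Matrix.mul_assoc H,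
      Matrix.mul_nonsing_inv _ uH, Matrix.one_mul]
  rw [← h5, Matrix.det_mul]
  ring

/-- **The three-block lemma**, with `aᴴ a` diagonal. -/
theorem three_block_diag {μ : Type*} [Fintype μ] [DecidableEq μ] {a : Matrix α μ ℂ}
    (e : Matrix α κ ℂ) (g : Matrix β μ ℂ) {x : μ → ℝ} (ha : aᴴ * a = rdiag x)
    :
    eta (a * aᴴ) + eta (e * eᴴ) + eta (g * gᴴ)
        + psi (a * aᴴ).trace.re (e * eᴴ).trace.re (g * gᴴ).trace.re
      ≤ eta (blockMat a e g) := by
  have pV := blockMat_psd a e g
  have pR := posSemidef_self_mul_conjTranspose g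
  have pE := posSemidef_self_mul_conjTranspose e
  have pH := posSemidef_conjTranspose_mul_self g
  have hx : ∀ i, 0 ≤ x i := fun i => by
    have h := (posSemidef_conjTranspose_mul_self a).diag_nonneg (i := i)
    rw [ha] at h
    simpa [rdiag] using h
  set gd : μ → ℝ := fun i => ((gᴴ * g) i i).re with hgd
  set ev : μ → ℝ := fun i => ((aᴴ * (e * eᴴ) * a) i i).re / x i with hev
  have hgd0 : ∀ i, 0 ≤ gd i := fun i => (Complex.le_def.1 (pH.diag_nonneg (i := i))).1
  have hquad : ∀ i, (aᴴ * (e * eᴴ) * a) i i = (ev i : ℂ) * x i := fun i => by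
    have hp := pE.conjTranspose_mul_mul_same a
    have hre := (Complex.conj_eq_iff_re.1 (hp.isHermitian.apply i i)).symm
    by_cases hi : x i = 0
    · have h0 : (a * delta i)ᴴ * (e * eᴴ) * (a * delta i) = 0 := by simp [col_zero ha hi]
      have h1 : delta i * (aᴴ * (e * eᴴ) * a) * delta i = 0 := by
        rw [← h0, Matrix.conjTranspose_mul, delta, rdiag_conjTranspose]
        simp only [Matrix.mul_assoc]
      rw [delta_sandwich] at h1
      have h2 := congrFun (congrFun h1 i) i
      simp [delta, rdiag] at h2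
      simp [h2, hi]
    · rw [hre, hev]
      push_cast
      rw [div_mul_cancel₀ _ (by exact_mod_cast hi)]
  have hev0 : ∀ i, 0 ≤ ev i := fun i =>
    div_nonneg (Complex.le_def.1 ((pE.conjTranspose_mul_mul_same a).diag_nonneg (i := i))).1 (hx i)
  -- the trace of the pinched `e eᴴ`
  have hY : ∑ i, ev i ≤ (e * eᴴ).trace.re := by
    set Q : Matrix α α ℂ := 1 - ∑ i, colProj a x i with hQ
    have hsum2 : (∑ i, colProj a x i) * (∑ i, colProj a x i) = ∑ i, colProj a x i := by
      rw [Matrix.sum_mul]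
      refine Finset.sum_congr rfl fun i _ => ?_
      rw [Matrix.mul_sum, Finset.sum_eq_single i]
      · rw [colProj_mul_colProj ha, if_pos rfl]
      · intro j _ hj; rw [colProj_mul_colProj ha, if_neg (Ne.symm hj)]
      · simp
    have hQh : Qᴴ = Q := by simp [hQ, Matrix.conjTranspose_sum, colProj_isHermitian]
    have hQQ : Qᴴ * Q = Q := by
      rw [hQh, hQ, Matrix.sub_mul, Matrix.mul_sub, Matrix.mul_sub, hsum2]
      simp
    have h := (posSemidef_conjTranspose_mul_self (Q * e)).trace_nonneg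
    rw [Matrix.conjTranspose_mul, ← Matrix.mul_assoc, Matrix.mul_assoc eᴴ, hQQ,
      Matrix.trace_mul_comm, ← Matrix.mul_assoc, Matrix.trace_mul_comm, hQ, Matrix.sub_mul,
      Matrix.one_mul, Matrix.trace_sub, Matrix.sum_mul, Matrix.trace_sum] at h
    have h1 : ∀ i, (colProj a x i * (e * eᴴ)).trace = (ev i : ℂ) := fun i => by
      rw [colProj, Matrix.smul_mul, Matrix.trace_smul, Matrix.mul_assoc, Matrix.trace_mul_comm,
        ← Matrix.mul_assoc, Matrix.trace_mul_comm, Matrix.trace]
      simp only [delta, rdiag, Matrix.diag_apply, Matrix.diagonal_mul, hquad, smul_eq_mul]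
      rw [Finset.sum_eq_single i]
      · by_cases hi : x i = 0
        · simp [hi, hev]
        · field_simp
          simp
      · intro j _ hj; simp [hj]
      · simp
    simp only [h1] at h
    have := (Complex.le_def.1 h).1
    simp only [Complex.zero_re, Complex.sub_re, Complex.re_sum, Complex.ofReal_re] at this
    linarith
  have hZ : ∑ i, gd i ≤ (g * gᴴ).trace.re := by
    rw [Matrix.trace_mul_comm, Matrix.trace, Complex.re_sum]
    rfl
  have hX : (a * aᴴ).trace.re = ∑ i, x i := by
    rw [Matrix.trace_mul_comm, ha]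
    simp [rdiag]
  have hXe : eta (a * aᴴ) = ∑ i, Real.negMulLog (x i) := by
    rw [eta_mul_comm, ha]
    exact eta_diagonal x
  -- the comparison of entropies
  let c : ((α ⊕ β) ⊕ β ⊕ α) ⊕ μ × Fin 4 → ℝ :=
    Sum.elim (Sum.elim (fun _ => 1) fun _ => -1) fun k => ![-1, -1, 1, 1] k.2
  let pt : ((α ⊕ β) ⊕ β ⊕ α) ⊕ μ × Fin 4 → ℝ :=
    Sum.elim (Sum.elim pV.isHermitian.eigenvalues
        (Sum.elim pR.isHermitian.eigenvalues pE.isHermitian.eigenvalues))
      fun k => ![rootP (x k.1) (ev k.1) (gd k.1), rootM (x k.1) (ev k.1) (gd k.1), ev k.1,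
        gd k.1] k.2
  have key := sum_negMulLog_nonneg Finset.univ c pt ?_ ?_ ?_ ?_
  · simp only [c, pt, Fintype.sum_sum_type, Fintype.sum_prod_type, Fin.sum_univ_four] at key
    simp [Finset.sum_add_distrib] at key
    have hpsi := psi_sum_le x ev gd hx hev0 hgd0 hY hZ
    simp only [psi, Finset.sum_sub_distrib, Finset.sum_add_distrib] at hpsi
    rw [hX, hXe, eta_eq pV.isHermitian, eta_eq pR.isHermitian, eta_eq pE.isHermitian,
      Fintype.sum_sum_type]
    unfold psi
    linarith
  · rintro (((k | k) | (k | k)) | ⟨k, j⟩) -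
    · exact pV.eigenvalues_nonneg _
    · exact pV.eigenvalues_nonneg _
    · exact pR.eigenvalues_nonneg _
    · exact pE.eigenvalues_nonneg _
    · obtain ⟨h3, h4⟩ := root_nonneg (hx k) (hev0 k) (hgd0 k)
      fin_cases j <;> simp [pt, hev0, hgd0, h3, h4]
  · simp [c, Fintype.sum_sum_type, Fintype.sum_prod_type, Fin.sum_univ_four]
    ring
  · have e1 : ∀ i, ∑ j, c (Sum.inr (i, j)) * pt (Sum.inr (i, j)) = -x i := fun i => by
      have h := root_add (x i) (ev i) (gd i)
      simp only [c, pt, Sum.elim_inr, Fin.sum_univ_four]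
      simp
      linarith
    rw [Fintype.sum_sum_type, Fintype.sum_prod_type, Fintype.sum_congr _ _ e1]
    simp only [c, pt, Fintype.sum_sum_type, Sum.elim_inl, Sum.elim_inr, one_mul, neg_mul,
      Finset.sum_neg_distrib]
    have t1 := trace_re_eq pV.isHermitian
    rw [Fintype.sum_sum_type] at t1
    rw [← t1, ← trace_re_eq pR.isHermitian, ← trace_re_eq pE.isHermitian]
    simp only [blockMat, Matrix.trace, Matrix.diag_apply, Fintype.sum_sum_type,
      Matrix.fromBlocks_apply₁₁, Matrix.fromBlocks_apply₂₂, Matrix.add_apply,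
      Finset.sum_add_distrib, Complex.add_re]
    rw [← hX, Matrix.trace]
    simp only [Matrix.diag_apply]
    ring
  · intro s hs
    set E := (s : ℂ) • (1 : Matrix α α ℂ) + e * eᴴ with hE
    set H := (s : ℂ) • (1 : Matrix μ μ ℂ) + gᴴ * g with hH
    have qE : E.PosDef := shift_pd pE hs
    have qH : H.PosDef := shift_pd pH hs
    set a' : Matrix α μ ℂ := (Real.sqrt s : ℂ) • a with ha'def
    have hsq : (Real.sqrt s : ℂ) * (Real.sqrt s : ℂ) = s := by
      rw [← Complex.ofReal_mul, Real.mul_self_sqrt hs.le]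
    have hconj : ∀ M : Matrix α α ℂ, a'ᴴ * M * a' = (s : ℂ) • (aᴴ * M * a) := fun M => by
      rw [ha'def, Matrix.conjTranspose_smul, Matrix.smul_mul, Matrix.smul_mul, Matrix.mul_smul,
        smul_smul, Complex.star_def, Complex.conj_ofReal, hsq]
    have ha' : a'ᴴ * a' = rdiag (fun i => s * x i) := by
      have := hconj 1
      rw [Matrix.mul_one, Matrix.mul_one] at this
      rw [this, ha, rdiag, rdiag, ← Matrix.diagonal_smul]
      congr 1; funext i; simp
    have hq : ∀ i, (a'ᴴ * E * a') i i = ((s + ev i : ℝ) : ℂ) * ((s * x i : ℝ) : ℂ) := fun i => by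
      rw [hconj, hE, Matrix.mul_add, Matrix.add_mul, Matrix.mul_smul, Matrix.smul_mul,
        Matrix.mul_one, ha]
      simp only [Matrix.smul_apply, Matrix.add_apply, hquad, rdiag, Matrix.diagonal_apply_eq,
        smul_eq_mul]
      push_cast
      ring
    have hlow := gfun_lower ha' qE qH (fun i => s + ev i)
      (fun i => by have := hev0 i; linarith) hq
    have hHd : ∀ i, (H i i).re = s + gd i := fun i => by simp [hH, hgd]
    simp only [hHd] at hlow
    have e1 : ∀ i, ∑ j, c (Sum.inr (i, j)) * Real.log (pt (Sum.inr (i, j)) + s)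
        = -Real.log (1 + s * x i / ((s + ev i) * (s + gd i))) + 0 := fun i => by
      rw [← log_roots (hx i) (hev0 i) (hgd0 i) hs]
      simp only [c, pt, Sum.elim_inr, Fin.sum_univ_four]
      simp
      ring
    have hdet := det_blockMat a e g hs
    rw [← hconj, ← hE, ← hH] at hdet
    obtain ⟨d1, d1i⟩ := det_re_pos (shift_pd pV hs)
    obtain ⟨d2, d2i⟩ := det_re_pos qH
    obtain ⟨d3, d3i⟩ := det_re_pos (shift_pd pR hs)
    obtain ⟨d4, d4i⟩ := det_re_pos qE
    obtain ⟨d5, d5i⟩ := det_re_pos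
      (qH.add_posSemidef (qE.inv.posSemidef.conjTranspose_mul_mul_same a'))
    have hdet' := congrArg Complex.re hdet
    simp only [Complex.mul_re, Complex.mul_im, d1i, d2i, d3i, d4i, d5i, mul_zero, zero_mul,
      sub_zero, add_zero] at hdet'
    have hlog := congrArg Real.log hdet'
    rw [Real.log_mul d1.ne' d2.ne', Real.log_mul (mul_pos d3 d4).ne' d5.ne',
      Real.log_mul d3.ne' d4.ne'] at hlog
    rw [gfun] at hlow
    rw [Fintype.sum_sum_type, Fintype.sum_prod_type, Fintype.sum_congr _ _ e1]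
    simp only [c, pt, Fintype.sum_sum_type, Sum.elim_inl, Sum.elim_inr, one_mul, neg_mul,
      Finset.sum_neg_distrib, add_zero]
    have l1 := log_det_shift pV hs
    rw [Fintype.sum_sum_type] at l1
    rw [← l1, ← log_det_shift pR hs, ← log_det_shift pE hs, ← hE]
    linarith

/-- **The three-block lemma.** -/
theorem three_block {μ : Type*} [Fintype μ] [DecidableEq μ] (a : Matrix α μ ℂ)
    (e : Matrix α κ ℂ) (g : Matrix β μ ℂ) :
    eta (a * aᴴ) + eta (e * eᴴ) + eta (g * gᴴ)
        + psi (a * aᴴ).trace.re (e * eᴴ).trace.re (g * gᴴ).trace.re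
      ≤ eta (blockMat a e g) := by
  have pA := posSemidef_conjTranspose_mul_self a
  set U := (pA.isHermitian.eigenvectorUnitary : Matrix μ μ ℂ) with hU
  have hUU : U * Uᴴ = 1 := Unitary.mul_star_self_of_mem pA.isHermitian.eigenvectorUnitary.2
  have hUU' : Uᴴ * U = 1 := Unitary.star_mul_self_of_mem pA.isHermitian.eigenvectorUnitary.2
  have hd : (a * U)ᴴ * (a * U) = rdiag pA.isHermitian.eigenvalues := by
    have h := pA.isHermitian.spectral_theorem
    rw [Unitary.conjStarAlgAut_apply, Matrix.star_eq_conjTranspose, ← hU] at h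
    have h' := congrArg (fun M => Uᴴ * M * U) h
    simp only [← Matrix.mul_assoc, hUU', Matrix.one_mul] at h'
    rw [Matrix.mul_assoc _ Uᴴ U, hUU', Matrix.mul_one] at h'
    rw [Matrix.conjTranspose_mul, ← Matrix.mul_assoc]
    exact h'
  have hcross : ∀ (b : Matrix α μ ℂ) (c : Matrix β μ ℂ), b * U * (c * U)ᴴ = b * cᴴ := fun b c => by
    rw [Matrix.conjTranspose_mul, Matrix.mul_assoc, ← Matrix.mul_assoc U, hUU, Matrix.one_mul]
  have h1 : a * U * (a * U)ᴴ = a * aᴴ := by
    rw [Matrix.conjTranspose_mul, Matrix.mul_assoc, ← Matrix.mul_assoc U, hUU, Matrix.one_mul]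
  have h2 : g * U * (g * U)ᴴ = g * gᴴ := by
    rw [Matrix.conjTranspose_mul, Matrix.mul_assoc, ← Matrix.mul_assoc U, hUU, Matrix.one_mul]
  have h3 : g * U * (a * U)ᴴ = g * aᴴ := by
    rw [Matrix.conjTranspose_mul, Matrix.mul_assoc, ← Matrix.mul_assoc U, hUU, Matrix.one_mul]
  have h := three_block_diag e (g * U) hd
  unfold blockMat at h ⊢
  rw [h1, h2, h3, hcross] at h
  exact h

end Vale.Agent.P358
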